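import Vale.Agent.P147.Mono

/-!
# The shift of an iid environment, and the good environments
-/

namespace Vale.Agent.P147

open MeasureTheory Set Finset Filter Topology ProbabilityTheory
open scoped ENNReal symmDiff

variable {d : ℕ}

/-- The iid environment law. -/
noncomputable def envLaw (μ : Measure (Step d → ℝ)) : Measure (Env d) :=
  Measure.infinitePi fun _ => μ

instance (μ : Measure (Step d → ℝ)) [IsProbabilityMeasure μ] : IsProbabilityMeasure (envLaw μ) := by
  unfold envLaw; infer_instance

/-- The environment seen from `v`. -/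
def shiftEnv (v : Site d) (ω : Env d) : Env d := fun y => ω (y + v)

lemma measurable_shiftEnv (v : Site d) : Measurable (shiftEnv v) :=
  measurable_pi_lambda _ fun y => measurable_pi_apply (y + v)

lemma measurePreserving_shiftEnv (μ : Measure (Step d → ℝ)) [IsProbabilityMeasure μ] (v : Site d) :
    MeasurePreserving (shiftEnv v) (envLaw μ) (envLaw μ) :=
  ⟨measurable_shiftEnv v, Measure.map_infinitePi_infinitePi_of_inj (P := fun _ : Site d => μ)
    (add_left_injective v)⟩

lemma shiftEnv_iterate (v : Site d) (n : ℕ) (ω : Env d) :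
    (shiftEnv v)^[n] ω = shiftEnv (n • v) ω := by
  induction n generalizing ω with
  | zero => funext y; simp [shiftEnv]
  | succ n ih =>
    rw [Function.iterate_succ_apply, ih]
    funext y
    simp only [shiftEnv]
    rw [succ_nsmul, add_assoc]

theorem ergodic_shiftEnv (μ : Measure (Step d → ℝ)) [IsProbabilityMeasure μ] {v : Site d}
    {i₀ : Fin d} (hv : v i₀ ≠ 0) : Ergodic (shiftEnv v) (envLaw μ) := by
  classical
  have hmp := measurePreserving_shiftEnv μ v
  refine ⟨hmp, ⟨fun A hA hinv => ?_⟩⟩
  set P := envLaw μ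
  have key : P.real A = P.real A * P.real A := by
    refine eq_of_forall_dist_le fun ε hε => ?_
    obtain ⟨C, hC, hCA⟩ := exists_measure_symmDiff_lt_of_generateFrom_isSetRing (μ := P)
      (C := measurableCylinders fun _ : Site d => Step d → ℝ) isSetRing_measurableCylinders
      ⟨{Set.univ}, Set.countable_singleton _,
        Set.singleton_subset_iff.2 (univ_mem_measurableCylinders _), by simp⟩
      generateFrom_measurableCylinders.symm hA
      (ε := ENNReal.ofReal (ε / 4)) (ENNReal.ofReal_pos.2 (by linarith))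
    obtain ⟨I, S, hS, rfl⟩ := (mem_measurableCylinders _).1 hC
    -- a far translate
    obtain ⟨n, hn⟩ : ∃ n : ℕ, ∀ x ∈ I, ∀ y ∈ I, x + n • v ≠ y := by
      refine ⟨2 * ∑ x ∈ I, (x i₀).natAbs + 1, fun x hx y hy h => ?_⟩
      set M := ∑ x ∈ I, (x i₀).natAbs with hM
      have h1 : (x i₀).natAbs ≤ M := Finset.single_le_sum (f := fun x => (x i₀).natAbs)
        (fun _ _ => Nat.zero_le _) hx
      have h2 : (y i₀).natAbs ≤ M := Finset.single_le_sum (f := fun x => (x i₀).natAbs)
        (fun _ _ => Nat.zero_le _) hy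
      have h3 := congrFun h i₀
      simp only [Pi.add_apply, Pi.smul_apply, smul_eq_mul, nsmul_eq_mul, Pi.mul_apply,
        Pi.natCast_apply] at h3
      have h4 : ((2 * M + 1 : ℕ) : ℤ).natAbs * (v i₀).natAbs = (y i₀ - x i₀).natAbs := by
        rw [← Int.natAbs_mul]; congr 1; omega
      have h5 : 1 ≤ (v i₀).natAbs := Int.natAbs_pos.2 hv
      have h6 : (y i₀ - x i₀).natAbs ≤ 2 * M := (Int.natAbs_sub_le _ _).trans (by omega)
      rw [Int.natAbs_natCast] at h4
      nlinarith
    set J := I.image fun x => x + n • v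
    have hdisj : Disjoint I J := by
      refine Finset.disjoint_left.2 fun x hx hx' => ?_
      obtain ⟨y, hy, rfl⟩ := Finset.mem_image.1 hx'
      exact hn y hy _ hx rfl
    set τn := (shiftEnv v)^[n]
    have hmpn : MeasurePreserving τn P P := hmp.iterate n
    set S' : Set (J → Step d → ℝ) :=
      {z | (fun x : I => z ⟨x.1 + n • v, Finset.mem_image_of_mem _ x.2⟩) ∈ S}
    have hS' : MeasurableSet S' :=
      (measurable_pi_lambda _ fun x => measurable_pi_apply _) hS
    have hpre : τn ⁻¹' cylinder I S = (fun ω : Env d => fun i : J => ω i) ⁻¹' S' := by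
      ext ω
      simp only [Set.mem_preimage, mem_cylinder, τn, shiftEnv_iterate, S', Set.mem_ofPred_eq]
      exact Iff.rfl
    have hind : IndepFun (fun ω : Env d => fun i : I => ω i) (fun ω : Env d => fun i : J => ω i) P :=
      iIndepFun.indepFun_finset I J hdisj
        (iIndepFun_infinitePi (P := fun _ : Site d => μ) (X := fun _ z => z)
          fun _ => measurable_id) fun i => measurable_pi_apply i
    have hCm : MeasurableSet (cylinder I S : Set (Env d)) := hS.cylinder I
    have hmul : P.real (cylinder I S ∩ τn ⁻¹' cylinder I S) =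
        P.real (cylinder I S) * P.real (cylinder I S) := by
      have h1 := hind.measure_inter_preimage_eq_mul _ _ hS hS'
      rw [← hpre] at h1
      simp only [measureReal_def, ← ENNReal.toReal_mul]
      congr 1
      refine h1.trans ?_
      rw [hmpn.measure_preimage hCm.nullMeasurableSet]
      rfl
    have hAn : τn ⁻¹' A = A := Function.IsFixedPt.preimage_iterate hinv n
    have hd : P.real (cylinder I S ∆ A) ≤ ε / 4 := by
      rw [measureReal_def]
      exact (ENNReal.toReal_mono ENNReal.ofReal_ne_top hCA.le).trans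
        (ENNReal.toReal_ofReal (by linarith)).le
    have hd2 : P.real ((cylinder I S ∩ τn ⁻¹' cylinder I S) ∆ A) ≤ ε / 2 := by
      have hsub : (cylinder I S ∩ τn ⁻¹' cylinder I S) ∆ A ⊆
          cylinder I S ∆ A ∪ τn ⁻¹' (cylinder I S ∆ A) := by
        conv_rhs => rw [Set.preimage_symmDiff, hAn]
        intro ω hω
        simp only [Set.mem_symmDiff, Set.mem_inter_iff, Set.mem_union] at hω ⊢
        tauto
      refine (measureReal_mono hsub).trans ((measureReal_union_le _ _).trans ?_)
      have : P.real (τn ⁻¹' (cylinder I S ∆ A)) = P.real (cylinder I S ∆ A) := by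
        rw [measureReal_def, measureReal_def,
          hmpn.measure_preimage (hCm.symmDiff hA).nullMeasurableSet]
      linarith
    have e1 := abs_measureReal_sub_le_measureReal_symmDiff (μ := P)
      hCm.nullMeasurableSet hA.nullMeasurableSet
    have e2 := abs_measureReal_sub_le_measureReal_symmDiff (μ := P)
      (s := cylinder I S ∩ τn ⁻¹' cylinder I S)
      (hCm.inter (hmpn.measurable hCm)).nullMeasurableSet hA.nullMeasurableSet
    rw [hmul] at e2
    have b1 : P.real (cylinder I S) ≤ 1 := measureReal_le_one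
    have b2 : P.real A ≤ 1 := measureReal_le_one
    have b3 : 0 ≤ P.real (cylinder I S) := measureReal_nonneg
    have b4 : 0 ≤ P.real A := measureReal_nonneg
    obtain ⟨e1l, e1r⟩ := abs_le.1 (e1.trans hd)
    obtain ⟨e2l, e2r⟩ := abs_le.1 (e2.trans hd2)
    rw [Real.dist_eq, abs_le]
    constructor <;> nlinarith
  have h01 : P.real A = 0 ∨ P.real A = 1 := by
    rcases eq_or_ne (P.real A) 0 with h | h
    · exact Or.inl h
    · exact Or.inr ((mul_eq_left₀ h).1 key.symm)
  rw [eventuallyConst_set']
  rcases h01 with h | h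
  · exact Or.inl (ae_eq_empty.2 ((measureReal_eq_zero_iff).1 h))
  · refine Or.inr (ae_eq_univ.2 ?_)
    rw [prob_compl_eq_zero_iff hA]
    rw [measureReal_def] at h
    exact (ENNReal.toReal_eq_one_iff _).1 h

variable [Nonempty (Fin d)]

/-- Almost every environment is good. -/
theorem ae_goodEnv {k j : Fin d} (hj : j ≠ k) (μ : Measure (Step d → ℝ)) [IsProbabilityMeasure μ]
    (r : Step d → ℝ) (hell : ∀ᵐ p ∂μ, (∀ e, 0 < p e) ∧ ∑ e, p e = 1)
    (hlat : ∀ᵐ p ∂μ, ∀ e : Step d, e.1 ≠ k → p e = offMass k p * r e) :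
    ∀ᵐ ω ∂envLaw μ, GoodEnv k r ω := by
  classical
  have pull : ∀ {Q : (Step d → ℝ) → Prop}, (∀ᵐ p ∂μ, Q p) →
      ∀ᵐ ω ∂envLaw μ, ∀ x, Q (ω x) := fun {Q} hQ => ae_all_iff.2 fun x =>
    (measurePreserving_eval_infinitePi (fun _ : Site d => μ) x).quasiMeasurePreserving.ae hQ
  have hmc : Measurable (offMass (d := d) k) := by unfold offMass; fun_prop
  obtain ⟨δ, hδ, hpos⟩ : ∃ δ : ℝ, 0 < δ ∧ μ {p | δ ≤ offMass k p} ≠ 0 := by
    by_contra! hcon
    have h0 : ∀ᵐ p ∂μ, ∀ m : ℕ, ¬(1 / (m + 1 : ℝ) ≤ offMass k p) :=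
      ae_all_iff.2 fun m => ae_iff.2 (by simpa using hcon _ (by positivity))
    obtain ⟨p, hp, hm⟩ := (hell.and h0).exists
    obtain ⟨m, hm'⟩ := exists_nat_one_div_lt (offMass_pos hj hp)
    exact hm m hm'.le
  have hfreq : ∀ W : ℕ, ∀ b : Bool, ∀ᵐ ω ∂envLaw μ, ∀ N : ℕ, ∃ n, N ≤ n ∧
      ∀ x ∈ side k W, x k = 0 → δ ≤ offMass k (ω (x + n • vec (k, b))) := by
    intro W b
    have hfin : {x : Site d | x ∈ side k W ∧ x k = 0}.Finite := by
      refine (finite_box ((k, true) : Step d) W 1).subset ?_
      rintro x ⟨h1, h2⟩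
      exact ⟨h1, by simp [ht, h2], by simp [ht, h2]⟩
    set F : Set (Env d) := Set.pi (hfin.toFinset : Set (Site d)) fun _ => {p | δ ≤ offMass k p}
    have hFm : MeasurableSet F :=
      MeasurableSet.pi (Finset.countable_toSet _) fun _ _ => measurableSet_le measurable_const hmc
    have hF : envLaw μ F ≠ 0 := by
      simp only [F, envLaw]
      rw [Measure.infinitePi_pi _ fun _ _ => measurableSet_le measurable_const hmc]
      exact Finset.prod_ne_zero_iff.2 fun _ _ => hpos
    set v : Site d := vec (k, b)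
    have hv : v k ≠ 0 := by cases b <;> simp [v, vec]
    have hmp := measurePreserving_shiftEnv μ v
    set B : Set (Env d) := {ω | ∃ᶠ n in atTop, (shiftEnv v)^[n] ω ∈ F}
    have hBm : MeasurableSet B := by
      have : B = ⋂ N : ℕ, ⋃ n, ⋃ (_ : N ≤ n), (shiftEnv v)^[n] ⁻¹' F := by
        ext; simp [B, frequently_atTop]
      rw [this]
      exact MeasurableSet.iInter fun N => MeasurableSet.iUnion fun n => MeasurableSet.iUnion fun _ =>
        (hmp.measurable.iterate n) hFm
    have hBinv : shiftEnv v ⁻¹' B = B := by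
      ext ω
      simp only [Set.mem_preimage, B, Set.mem_ofPred_eq]
      simp only [← Function.iterate_succ_apply, frequently_atTop]
      constructor
      · intro h N
        obtain ⟨n, hn, hn'⟩ := h N
        exact ⟨n + 1, by omega, hn'⟩
      · intro h N
        obtain ⟨n, hn, hn'⟩ := h (N + 1)
        obtain ⟨m, rfl⟩ : ∃ m, n = m + 1 := ⟨n - 1, by omega⟩
        exact ⟨m, by omega, hn'⟩
    have hrec := hmp.conservative.ae_mem_imp_frequently_image_mem hFm.nullMeasurableSet
    have hB : ∀ᵐ ω ∂envLaw μ, ω ∈ B := by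
      refine ((ergodic_shiftEnv μ hv).toPreErgodic.ae_mem_or_ae_notMem hBm hBinv).resolve_right ?_
      intro hnot
      refine hF (measure_eq_zero_iff_ae_notMem.2 ?_)
      filter_upwards [hnot, hrec] with ω h1 h2 hω
      exact h1 (h2 hω)
    filter_upwards [hB] with ω hω N
    obtain ⟨n, hn, hn'⟩ := frequently_atTop.1 hω N
    refine ⟨n, hn, fun x hx hxk => ?_⟩
    rw [shiftEnv_iterate] at hn'
    exact hn' x (by simp [hx, hxk])
  filter_upwards [pull hell, pull hlat, ae_all_iff.2 fun W => ae_all_iff.2 (hfreq W)]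
    with ω h1 h2 h3
  refine ⟨h1, h2, fun W => ⟨δ, hδ, fun N => ⟨?_, ?_⟩⟩⟩
  · obtain ⟨n, hn, hgood⟩ := h3 W true N.natAbs
    refine ⟨n, by omega, fun x hx hxk => ?_⟩
    have h0 : vec ((k, true) : Step d) k = 1 := by simp [vec]
    have hy : x - n • vec (k, true) ∈ side k W := by
      rw [← side_add_nsmul ((k, true) : Step d) W _ n, sub_add_cancel]; exact hx
    have hyk : (x - n • vec ((k, true) : Step d)) k = 0 := by simp [h0, hxk]
    simpa [sub_add_cancel] using hgood _ hy hyk
  · obtain ⟨n, hn, hgood⟩ := h3 W false N.natAbs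
    refine ⟨-(n : ℤ), by omega, fun x hx hxk => ?_⟩
    have h0 : vec ((k, false) : Step d) k = -1 := by simp [vec]
    have hy : x - n • vec (k, false) ∈ side k W := by
      rw [← side_add_nsmul ((k, false) : Step d) W _ n, sub_add_cancel]; exact hx
    have hyk : (x - n • vec ((k, false) : Step d)) k = 0 := by simp [h0, hxk]
    simpa [sub_add_cancel] using hgood _ hy hyk

end Vale.Agent.P147
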