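import Vale.Agent.P147.Walk

/-!
# The walk leaves every cylinder around an axis
-/

namespace Vale.Agent.P147

open MeasureTheory Set Finset Filter Topology
open scoped ENNReal

variable {d : ℕ} [Nonempty (Fin d)]

/-- The mass of the steps off the axis `k`. -/
def offMass (k : Fin d) (p : Step d → ℝ) : ℝ := 1 - p (k, true) - p (k, false)

/-- The cylinder of radius `W` around the axis `k`. -/
def side (k : Fin d) (W : ℕ) : Set (Site d) := {x | ∀ i, i ≠ k → |x i| ≤ (W : ℤ)}

/-- The environments for which the argument works. -/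
structure GoodEnv (k : Fin d) (r : Step d → ℝ) (ω : Env d) : Prop where
  ell : Elliptic ω
  lat : ∀ x e, e.1 ≠ k → ω x e = offMass k (ω x) * r e
  div : ∀ W : ℕ, ∃ δ : ℝ, 0 < δ ∧ ∀ N : ℤ,
    (∃ z, N ≤ z ∧ ∀ x ∈ side k W, x k = z → δ ≤ offMass k (ω x)) ∧
    ∃ z, z ≤ N ∧ ∀ x ∈ side k W, x k = z → δ ≤ offMass k (ω x)

/-- The steps off the axis `k`. -/
def lats (k : Fin d) : Finset (Step d) := Finset.univ.filter fun e => e.1 ≠ k

omit [Nonempty (Fin d)] in
lemma sum_split (k : Fin d) (F : Step d → ℝ) :
    ∑ e, F e = F (k, true) + F (k, false) + ∑ e ∈ lats k, F e := by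
  classical
  rw [← Finset.sum_filter_add_sum_filter_not Finset.univ (fun e : Step d => e.1 = k)]
  congr 1
  have : (Finset.univ.filter fun e : Step d => e.1 = k) = {(k, true), (k, false)} := by
    ext ⟨i, b⟩
    cases b <;> simp
  rw [this, Finset.sum_insert (by simp), Finset.sum_singleton]

omit [Nonempty (Fin d)] in
lemma offMass_eq {k : Fin d} {p : Step d → ℝ} (hs : ∑ e, p e = 1) :
    offMass k p = ∑ e ∈ lats k, p e := by
  rw [sum_split k] at hs
  unfold offMass
  linarith

omit [Nonempty (Fin d)] in
lemma offMass_pos {k j : Fin d} (hj : j ≠ k) {p : Step d → ℝ}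
    (hp : (∀ e, 0 < p e) ∧ ∑ e, p e = 1) : 0 < offMass k p := by
  rw [offMass_eq hp.2]
  exact Finset.sum_pos (fun e _ => hp.1 e) ⟨(j, true), by simp [lats, hj]⟩

namespace GoodEnv

variable {k j : Fin d} {r : Step d → ℝ} {ω : Env d}

omit [Nonempty (Fin d)] in
lemma r_pos (h : GoodEnv k r ω) (hj : j ≠ k) {e : Step d} (he : e.1 ≠ k) : 0 < r e := by
  have h1 := (h.ell 0).1 e
  rw [h.lat 0 e he] at h1
  exact pos_of_mul_pos_right h1 (offMass_pos hj (h.ell 0)).le

omit [Nonempty (Fin d)] in
lemma r_sum (h : GoodEnv k r ω) (hj : j ≠ k) : ∑ e ∈ lats k, r e = 1 := by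
  have h1 := offMass_eq (k := k) (h.ell 0).2
  have h2 : ∑ e ∈ lats k, ω 0 e = offMass k (ω 0) * ∑ e ∈ lats k, r e := by
    rw [Finset.mul_sum]
    exact Finset.sum_congr rfl fun e he => h.lat 0 e (by simpa [lats] using he)
  rw [h2] at h1
  exact (mul_eq_left₀ (offMass_pos hj (h.ell 0)).ne').1 h1.symm

end GoodEnv

lemma ae_law_zero (ω : Env d) (x : Site d) : ∀ᵐ X ∂law ω x, X 0 = x := by
  rw [law, ae_map_iff (measurable_walk_right ω x).aemeasurable]
  · exact Eventually.of_forall fun U => rfl
  · exact measurableSet_eq_fun (by fun_prop) measurable_const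

lemma ae_law_step (ω : Env d) (x : Site d) :
    ∀ᵐ X ∂law ω x, ∀ n, ∃ e : Step d, X (n + 1) = X n + vec e := by
  rw [law, ae_map_iff (measurable_walk_right ω x).aemeasurable]
  · exact Eventually.of_forall fun U n => ⟨_, rfl⟩
  · have : {X : ℕ → Site d | ∀ n, ∃ e : Step d, X (n + 1) = X n + vec e} =
        ⋂ n, ⋃ e : Step d, {X | X (n + 1) = X n + vec e} := by ext; simp
    rw [this]
    exact MeasurableSet.iInter fun n => MeasurableSet.iUnion fun e =>
      measurableSet_eq_fun (by fun_prop)
        ((measurable_of_countable fun z : Site d => z + vec e).comp (measurable_pi_apply n))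

lemma lintegral_law {ω : Env d} (hω : Elliptic ω) (x : Site d) {F : (ℕ → Site d) → ℝ≥0∞}
    (hF : Measurable F) :
    ∫⁻ X, F X ∂law ω x =
      ∑ f : Step d, ENNReal.ofReal (ω x f) * ∫⁻ X, F (cons x X) ∂law ω (x + vec f) := by
  conv_lhs => rw [law_unique hω (isQuenchedLaw_law hω x) (isQuenchedLaw_step hω x)]
  simp [lintegral_finsetSum_measure, lintegral_map hF (measurable_cons x)]

open Classical in
/-- Off-axis mass accumulated before leaving the cylinder, up to time `n`. -/
noncomputable def insideMass (k : Fin d) (W : ℕ) (ω : Env d) (n : ℕ) (X : ℕ → Site d) : ℝ≥0∞ :=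
  ∑ i ∈ Finset.range n, if ∀ m ≤ i, X m ∈ side k W then
    ENNReal.ofReal (offMass k (ω (X i))) else 0

lemma measurable_insideMass (k : Fin d) (W : ℕ) (ω : Env d) (n : ℕ) :
    Measurable (insideMass k W ω n) := by
  classical
  refine Finset.measurable_sum _ fun i _ => Measurable.ite ?_ ?_ measurable_const
  · have : {X : ℕ → Site d | ∀ m ≤ i, X m ∈ side k W} =
        ⋂ m, ⋂ (_ : m ≤ i), (fun X => X m) ⁻¹' side k W := by ext; simp
    rw [this]
    exact MeasurableSet.iInter fun m => MeasurableSet.iInter fun _ =>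
      measurable_pi_apply m MeasurableSet.of_discrete
  · exact (measurable_of_countable fun z : Site d => ENNReal.ofReal (offMass k (ω z))).comp
      (measurable_pi_apply i)

lemma insideMass_cons {k : Fin d} {W : ℕ} {ω : Env d} {x : Site d} (hx : x ∈ side k W) (n : ℕ)
    (X : ℕ → Site d) :
    insideMass k W ω (n + 1) (cons x X) =
      ENNReal.ofReal (offMass k (ω x)) + insideMass k W ω n X := by
  classical
  rw [insideMass, Finset.sum_range_succ', add_comm]
  congr 1
  · rw [if_pos]
    · rfl
    · intro m hm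
      obtain rfl : m = 0 := by omega
      exact hx
  · refine Finset.sum_congr rfl fun i _ => ?_
    have : (∀ m ≤ i + 1, cons x X m ∈ side k W) ↔ ∀ m ≤ i, X m ∈ side k W := by
      constructor
      · exact fun h m hm => h (m + 1) (by omega)
      · intro h m hm
        cases m with
        | zero => exact hx
        | succ m => exact h m (by omega)
    simp only [this]
    rfl

theorem insideMass_bound {k j : Fin d} {r : Step d → ℝ} {ω : Env d} (h : GoodEnv k r ω)
    (hj : j ≠ k) (W : ℕ) :
    ∃ K : ℝ, ∀ n x, ∫⁻ X, insideMass k W ω n X ∂law ω x ≤ ENNReal.ofReal K := by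
  classical
  set a := r (j, true) with ha
  set a' := r (j, false) with ha'
  have hapos : 0 < a := h.r_pos hj hj
  have ha'pos : 0 < a' := h.r_pos hj hj
  set β : ℝ := 1 + (a' + 1) / a with hβdef
  have hβ : 1 < β := by rw [hβdef]; have : 0 < (a' + 1) / a := by positivity
                        linarith
  have hβ0 : (0 : ℝ) < β := by linarith
  set κ : ℝ := a * (β - 1) + a' * (β⁻¹ - 1) with hκdef
  have hκ : 1 ≤ κ := by
    have h1 : a * (β - 1) = a' + 1 := by rw [hβdef]; field_simp; ring
    have h2 : 0 ≤ a' * β⁻¹ := by positivity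
    rw [hκdef, h1]; nlinarith
  set φ : Site d → ℝ := fun x => β ^ (x j) with hφ
  have hφ0 : ∀ x, 0 < φ x := fun x => zpow_pos hβ0 _
  set Φ : ℝ := β ^ ((W : ℤ) + 1)
  set c : Site d → ℝ := fun x => offMass k (ω x)
  have hc : ∀ x, 0 < c x := fun x => offMass_pos hj (h.ell x)
  set K : ℝ := β ^ (W : ℤ) with hK
  have hK0 : 0 < K := zpow_pos hβ0 _
  set R : Site d → ℝ := fun x => if x ∈ side k W then K * (Φ - φ x) else 0 with hR
  have hΦ : ∀ x ∈ side k W, φ x ≤ Φ := fun x hx =>
    zpow_le_zpow_right₀ hβ.le ((abs_le.1 (hx j hj)).2.trans (by omega))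
  -- the drift of `φ`
  have hvj : ∀ (x : Site d) (e : Step d), e.1 ≠ j → φ (x + vec e) = φ x := by
    intro x e he
    simp [hφ, vec, Pi.single_eq_of_ne (Ne.symm he)]
  have hup : ∀ x : Site d, φ (x + vec (j, true)) = φ x * β := by
    intro x
    simp [hφ, vec, zpow_add_one₀ hβ0.ne']
  have hdown : ∀ x : Site d, φ (x + vec (j, false)) = φ x * β⁻¹ := by
    intro x
    simp [hφ, vec, ← sub_eq_add_neg, zpow_sub_one₀ hβ0.ne']
  have hdrift : ∀ x, ∑ e, ω x e * φ (x + vec e) = φ x + κ * c x * φ x := by
    intro x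
    have hz : ∑ e, ω x e * (φ (x + vec e) - φ x) = κ * c x * φ x := by
      rw [← Finset.sum_subset (Finset.subset_univ {((j, true) : Step d), (j, false)})]
      · rw [Finset.sum_insert (by simp), Finset.sum_singleton, hup, hdown,
          h.lat x (j, true) hj, h.lat x (j, false) hj]
        simp only [hκdef, ha, ha', c]
        ring
      · intro e _ he
        rw [hvj x e]
        · ring
        · intro hej
          obtain ⟨i, b⟩ := e
          simp only at hej
          subst hej
          cases b <;> simp at he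
    have : ∑ e, ω x e * (φ (x + vec e) - φ x) = ∑ e, ω x e * φ (x + vec e) - φ x := by
      rw [Finset.sum_congr rfl (fun e _ => mul_sub (ω x e) _ _), Finset.sum_sub_distrib,
        ← Finset.sum_mul, (h.ell x).2, one_mul]
    linarith
  have hR0 : ∀ x, 0 ≤ R x := by
    intro x
    simp only [hR]
    split_ifs with hx
    · have := hΦ x hx; nlinarith
    · rfl
  have hRle : ∀ x ∈ side k W, ∀ e, R (x + vec e) ≤ K * (Φ - φ (x + vec e)) := by
    intro x hx e
    simp only [hR]
    split_ifs
    · rfl
    · have : φ (x + vec e) ≤ Φ := by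
        refine zpow_le_zpow_right₀ hβ.le ?_
        have := (abs_le.1 (hx j hj)).2
        have h2 : vec e j ≤ 1 := by
          obtain ⟨i, b⟩ := e
          by_cases hij : j = i
          · subst hij; cases b <;> simp [vec]
          · simp [vec, Pi.single_eq_of_ne hij]
        simp only [Pi.add_apply]
        omega
      nlinarith
  have hstep : ∀ x ∈ side k W, c x + ∑ e, ω x e * R (x + vec e) ≤ R x := by
    intro x hx
    have h1 : ∑ e, ω x e * R (x + vec e) ≤ ∑ e, ω x e * (K * (Φ - φ (x + vec e))) :=
      Finset.sum_le_sum fun e _ => mul_le_mul_of_nonneg_left (hRle x hx e) ((h.ell x).1 e).le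
    have h2 : ∑ e, ω x e * (K * (Φ - φ (x + vec e))) = K * Φ - K * (φ x + κ * c x * φ x) := by
      rw [Finset.sum_congr rfl (fun e _ =>
          show ω x e * (K * (Φ - φ (x + vec e))) = K * Φ * ω x e - K * (ω x e * φ (x + vec e))
          by ring),
        Finset.sum_sub_distrib, ← Finset.mul_sum, ← Finset.mul_sum, (h.ell x).2, hdrift, mul_one]
    have h3 : 1 ≤ K * φ x := by
      rw [hK, hφ, ← zpow_add₀ hβ0.ne']
      exact one_le_zpow₀ hβ.le (by have := (abs_le.1 (hx j hj)).1; omega)
    have h4 : c x ≤ K * φ x * (κ * c x) :=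
      calc c x = 1 * (1 * c x) := by ring
        _ ≤ K * φ x * (κ * c x) :=
          mul_le_mul h3 (mul_le_mul_of_nonneg_right hκ (hc x).le) (by nlinarith [hc x])
            (by positivity)
    simp only [hR, if_pos hx] at *
    nlinarith
  refine ⟨K * Φ, fun n x => ?_⟩
  have key : ∀ n x, ∫⁻ X, insideMass k W ω n X ∂law ω x ≤ ENNReal.ofReal (R x) := by
    intro n
    induction n with
    | zero => intro x; simp [insideMass]
    | succ n ih =>
      intro x
      by_cases hx : x ∈ side k W
      · rw [lintegral_law h.ell x (measurable_insideMass k W ω _)]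
        simp_rw [insideMass_cons hx, lintegral_add_left measurable_const, lintegral_const,
          measure_univ, mul_one]
        calc ∑ e, ENNReal.ofReal (ω x e) *
              (ENNReal.ofReal (c x) + ∫⁻ X, insideMass k W ω n X ∂law ω (x + vec e))
            ≤ ∑ e, ENNReal.ofReal (ω x e) * ENNReal.ofReal (c x + R (x + vec e)) := by
              refine Finset.sum_le_sum fun e _ => mul_le_mul_right ?_ _
              rw [ENNReal.ofReal_add (hc x).le (hR0 _)]
              exact add_le_add le_rfl (ih _)
          _ = ENNReal.ofReal (∑ e, ω x e * (c x + R (x + vec e))) := by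
              rw [ENNReal.ofReal_sum_of_nonneg fun e _ =>
                mul_nonneg ((h.ell x).1 e).le (add_nonneg (hc x).le (hR0 _))]
              exact Finset.sum_congr rfl fun e _ => (ENNReal.ofReal_mul ((h.ell x).1 e).le).symm
          _ ≤ ENNReal.ofReal (R x) := by
              refine ENNReal.ofReal_le_ofReal ?_
              rw [Finset.sum_congr rfl (fun e _ => mul_add (ω x e) _ _), Finset.sum_add_distrib,
                ← Finset.sum_mul, (h.ell x).2, one_mul]
              exact hstep x hx
      · rw [lintegral_congr_ae (g := fun _ => 0)]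
        · simp
        · filter_upwards [ae_law_zero ω x] with X hX
          refine Finset.sum_eq_zero fun i _ => if_neg fun hall => hx ?_
          rw [← hX]; exact hall 0 (Nat.zero_le _)
  refine (key n x).trans (ENNReal.ofReal_le_ofReal ?_)
  simp only [hR]
  split_ifs
  · have := hφ0 x; nlinarith
  · have := hφ0 x; positivity

/-- A nearest neighbour integer sequence that is unbounded above visits every high level. -/
lemma exists_visit {a : ℕ → ℤ} (hstep : ∀ n, |a (n + 1) - a n| ≤ 1) {z : ℤ} {N m : ℕ}
    (h1 : a N ≤ z) (hNm : N ≤ m) (h2 : z ≤ a m) : ∃ i, N ≤ i ∧ a i = z := by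
  induction hNm with
  | refl => exact ⟨N, le_rfl, le_antisymm h1 h2⟩
  | @step m hm ih =>
    by_cases h : z ≤ a m
    · exact ih h
    · have := abs_le.1 (hstep m)
      simp only [Nat.succ_eq_add_one] at h2
      exact ⟨m + 1, Nat.le_succ_of_le hm, by omega⟩

theorem ae_exit {k j : Fin d} {r : Step d → ℝ} {ω : Env d} (h : GoodEnv k r ω)
    (hj : j ≠ k) (W : ℕ) (x : Site d) :
    ∀ᵐ X ∂law ω x, ∃ n, X n ∉ side k W := by
  classical
  obtain ⟨K, hK⟩ := insideMass_bound h hj W
  have hmono : Monotone fun n => insideMass k W ω n := fun a b hab X =>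
    Finset.sum_le_sum_of_subset (Finset.range_mono hab)
  have hfin : ∀ᵐ X ∂law ω x, (⨆ n, insideMass k W ω n X) < ∞ := by
    refine ae_lt_top (Measurable.iSup fun n => measurable_insideMass k W ω n) ?_
    rw [lintegral_iSup (fun n => measurable_insideMass k W ω n) hmono]
    exact ne_top_of_le_ne_top ENNReal.ofReal_ne_top (iSup_le fun n => hK n x)
  filter_upwards [hfin, ae_law_step ω x] with X hX hsteps
  by_contra hall
  push Not at hall
  set cc : ℕ → ℝ≥0∞ := fun i => ENNReal.ofReal (offMass k (ω (X i)))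
  have htsum : ∑' i, cc i ≠ ∞ := by
    rw [ENNReal.tsum_eq_iSup_nat]
    refine ne_top_of_le_ne_top hX.ne (iSup_mono fun n => le_of_eq ?_)
    exact Finset.sum_congr rfl fun i _ => by rw [if_pos fun m _ => hall m]
  have hlim := ENNReal.tendsto_atTop_zero_of_tsum_ne_top htsum
  have hd1 : ∀ n, |X (n + 1) k - X n k| ≤ 1 := by
    intro n
    obtain ⟨⟨i, b⟩, he⟩ := hsteps n
    rw [he]
    by_cases hik : k = i
    · subst hik; cases b <;> simp [vec]
    · simp [vec, Pi.single_eq_of_ne hik]
  suffices hfreq : ∃ δ : ℝ, 0 < δ ∧ ∀ N, ∃ i, N ≤ i ∧ δ ≤ offMass k (ω (X i)) by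
    obtain ⟨δ, hδ, hf⟩ := hfreq
    obtain ⟨N, hN⟩ := Filter.eventually_atTop.1
      ((tendsto_order.1 hlim).2 (ENNReal.ofReal δ) (ENNReal.ofReal_pos.2 hδ))
    obtain ⟨i, hi, hi'⟩ := hf N
    exact absurd (hN i hi) (not_lt.2 (ENNReal.ofReal_le_ofReal hi'))
  obtain ⟨δ, hδ, hdiv⟩ := h.div W
  by_cases hU : BddAbove (Set.range fun n => X n k)
  · by_cases hL : BddBelow (Set.range fun n => X n k)
    · obtain ⟨U, hU⟩ := hU
      obtain ⟨L, hL⟩ := hL
      have hfinite : (Set.range X).Finite := by
        refine Set.Finite.subset (Set.Finite.pi (t := fun i : Fin d =>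
          if i = k then Set.Icc L U else Set.Icc (-(W : ℤ)) W) fun i => ?_) ?_
        · split_ifs <;> exact Set.finite_Icc _ _
        · rintro y ⟨n, rfl⟩ i _
          dsimp only
          split_ifs with hi
          · subst hi; exact ⟨hL ⟨n, rfl⟩, hU ⟨n, rfl⟩⟩
          · exact abs_le.1 (hall n i hi)
      obtain ⟨y, hy, hmin⟩ := Set.exists_min_image _ (fun y => offMass k (ω y)) hfinite
        (Set.range_nonempty X)
      exact ⟨_, offMass_pos hj (h.ell y), fun N => ⟨N, le_rfl, hmin _ ⟨N, rfl⟩⟩⟩
    · refine ⟨δ, hδ, fun N => ?_⟩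
      obtain ⟨z, hz, hgood⟩ := (hdiv (X N k)).2
      obtain ⟨m, hm⟩ : ∃ m, X m k < z - N := by
        by_contra! hb
        exact hL ⟨z - N, by rintro _ ⟨m, rfl⟩; exact hb m⟩
      have hsmall : ∀ m ≤ N, X N k - (N : ℤ) ≤ X m k := by
        have : ∀ t m, m + t = N → X N k - (t : ℤ) ≤ X m k := by
          intro t
          induction t with
          | zero => intro m hm; simp at hm; simp [hm]
          | succ t ih =>
            intro m hm
            have h1 := ih (m + 1) (by omega)
            have h2 := abs_le.1 (hd1 m)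
            push_cast
            omega
        intro m hm
        have := this (N - m) m (by omega)
        omega
      have hNm : N ≤ m := by
        by_contra hlt
        have := hsmall m (by omega)
        omega
      obtain ⟨i, hi, hiz⟩ := exists_visit (a := fun n => -X n k)
        (fun n => by have := hd1 n; rwa [neg_sub_neg, abs_sub_comm]) (z := -z) (N := N) (m := m)
        (by simpa using hz) hNm (by simp only [neg_le_neg_iff]; omega)
      exact ⟨i, hi, hgood _ (hall i) (by simpa using hiz)⟩
  · refine ⟨δ, hδ, fun N => ?_⟩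
    obtain ⟨z, hz, hgood⟩ := (hdiv (X N k)).1
    obtain ⟨m, hm⟩ : ∃ m, z + N < X m k := by
      by_contra! hb
      exact hU ⟨z + N, by rintro _ ⟨m, rfl⟩; exact hb m⟩
    have hsmall : ∀ m ≤ N, X m k ≤ X N k + (N : ℤ) := by
      have : ∀ t m, m + t = N → X m k ≤ X N k + (t : ℤ) := by
        intro t
        induction t with
        | zero => intro m hm; simp at hm; simp [hm]
        | succ t ih =>
          intro m hm
          have h1 := ih (m + 1) (by omega)
          have h2 := abs_le.1 (hd1 m)
          push_cast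
          omega
      intro m hm
      have := this (N - m) m (by omega)
      omega
    have hNm : N ≤ m := by
      by_contra hlt
      have := hsmall m (by omega)
      omega
    obtain ⟨i, hi, hiz⟩ := exists_visit (a := fun n => X n k) hd1 (N := N) (m := m) hz hNm
      (by omega)
    exact ⟨i, hi, hgood _ (hall i) hiz⟩

end Vale.Agent.P147
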