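import Vale.Agent.P147.Environment

/-!
# The zero-one law
-/

namespace Vale.Agent.P147

open MeasureTheory Set Finset Filter Topology
open scoped ENNReal

variable {d : ℕ} [Nonempty (Fin d)]

omit [Nonempty (Fin d)] in
lemma cons_preimage_escape (l : Fin d → ℝ) (x : Site d) : cons x ⁻¹' escape l = escape l := by
  ext X
  exact (tendsto_add_atTop_iff_nat (f := fun n => dot l (cons x X n)) 1).symm

omit [Nonempty (Fin d)] in
lemma translate_preimage_escape (l : Fin d → ℝ) (v : Site d) :
    (fun (X : ℕ → Site d) i => X i + v) ⁻¹' escape l = escape l := by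
  ext X
  have : ∀ n, dot l (X n + v) = dot l (X n) + dot l v := fun n => by
    simp [dot, add_mul, Finset.sum_add_distrib]
  simp only [Set.mem_preimage, escape, Set.mem_ofPred_eq, this]
  constructor
  · intro h
    simpa using tendsto_atTop_add_const_right _ (-dot l v) h
  · exact fun h => tendsto_atTop_add_const_right _ (dot l v) h

lemma law_escape_translate (ω : Env d) (l : Fin d → ℝ) (x : Site d) :
    law ω x (escape l) = law (shiftEnv x ω) 0 (escape l) := by
  conv_lhs => rw [← zero_add x, law_translate ω x 0]
  rw [Measure.map_apply (by fun_prop) (measurableSet_escape l), translate_preimage_escape]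
  rfl

/-- A constant escape probability in a fixed environment is zero or one. -/
theorem zero_or_one_of_const {ω : Env d} (hω : Elliptic ω) (l : Fin d → ℝ) {c : ℝ≥0∞}
    (hc : ∀ x, law ω x (escape l) = c) : c = 0 ∨ c = 1 := by
  have hA := measurableSet_escape l
  have hstep : ∀ (x : Site d) (n : ℕ) (γ : ℕ → Site d), γ 0 = x →
      cons x ⁻¹' pre (n + 1) γ = pre n fun i => γ (i + 1) := by
    intro x n γ h
    ext X
    constructor
    · exact fun hX i hi => hX (i + 1) (by omega)
    · intro hX i hi
      cases i with
      | zero => exact h.symm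
      | succ i => exact hX i (by omega)
  have key : ∀ (n : ℕ) (γ : ℕ → Site d) (x : Site d), law ω x (escape l ∩ pre n γ) = c * law ω x (pre n γ) := by
    intro n
    induction n with
    | zero =>
      intro γ x
      by_cases h : γ 0 = x
      · have h0 : cons x ⁻¹' pre 0 γ = univ := by
          ext X; simp [pre, cons, h]
        rw [law_step hω x (hA.inter (measurableSet_pre _ _)), law_step hω x (measurableSet_pre _ _),
          Set.preimage_inter, h0, cons_preimage_escape, Set.inter_univ, Finset.mul_sum]
        refine Finset.sum_congr rfl fun e _ => ?_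
        rw [hc, measure_univ, mul_one, mul_comm]
      · have h0 : cons x ⁻¹' pre 0 γ = ∅ := by
          ext X; simp [pre, cons, Ne.symm h]
        rw [law_step hω x (hA.inter (measurableSet_pre _ _)), law_step hω x (measurableSet_pre _ _),
          Set.preimage_inter, h0]
        simp
    | succ n ih =>
      intro γ x
      rw [law_step hω x (hA.inter (measurableSet_pre _ _)), law_step hω x (measurableSet_pre _ _),
        Set.preimage_inter, cons_preimage_escape, Finset.mul_sum]
      refine Finset.sum_congr rfl fun e _ => ?_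
      by_cases h : γ 0 = x
      · rw [hstep x n γ h, ih, mul_left_comm]
      · have h0 : cons x ⁻¹' pre (n + 1) γ = ∅ := by
          ext X
          refine iff_of_false (fun hX => h ?_) (Set.notMem_empty X)
          exact (hX 0 (Nat.zero_le _)).symm
        simp [h0]
  set x : Site d := 0
  have hc1 : c ≤ 1 := hc x ▸ prob_le_one
  have heq : (law ω x).restrict (escape l) = c • law ω x := by
    refine ext_of_pre (fun n γ => ?_) ?_
    · rw [Measure.restrict_apply (measurableSet_pre n γ), Set.inter_comm, key,
        Measure.smul_apply, smul_eq_mul]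
    · simp [hc x]
  have := congrArg (fun m : Measure (ℕ → Site d) => m (escape l)) heq
  simp only [Measure.restrict_apply hA, Set.inter_self, Measure.smul_apply, smul_eq_mul, hc x]
    at this
  rcases eq_or_ne c 0 with h0 | h0
  · exact Or.inl h0
  · right
    have h2 := congrArg (fun t => c⁻¹ * t) this
    simp only [← mul_assoc, ENNReal.inv_mul_cancel h0 (ne_top_of_le_ne_top ENNReal.one_ne_top hc1),
      one_mul] at h2
    exact h2.symm

/-- Directional zero-one law for deterministic lateral conditional step laws. -/
theorem zero_one {k j : Fin d} (hj : j ≠ k) (μ : Measure (Step d → ℝ)) [IsProbabilityMeasure μ]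
    (r : Step d → ℝ) (hell : ∀ᵐ p ∂μ, (∀ e, 0 < p e) ∧ ∑ e, p e = 1)
    (hlat : ∀ᵐ p ∂μ, ∀ e : Step d, e.1 ≠ k → p e = offMass k p * r e) (l : Fin d → ℝ) :
    ∃ c : ℝ≥0∞, (c = 0 ∨ c = 1) ∧
      ∀ᵐ ω ∂envLaw μ, Elliptic ω ∧ ∀ x, law ω x (escape l) = c := by
  have hgood := ae_goodEnv hj μ r hell hlat
  set b : Bool := decide (0 ≤ l k) with hb
  set a : Step d := (k, b) with ha
  have hla : 0 ≤ dot l (vec a) := by
    have : dot l (vec a) = (if b then (1 : ℝ) else -1) * l k := by
      rw [dot, Finset.sum_eq_single k]
      · cases hb' : b <;> simp [ha, vec, hb']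
      · intro i _ hi; simp [ha, vec, Pi.single_eq_of_ne hi]
      · simp
    rw [this]
    by_cases h : 0 ≤ l k
    · simp [hb, h]
    · simp [hb, h]; linarith
  set f : Env d → ℝ≥0∞ := fun ω => law ω 0 (escape l)
  have hf : Measurable f := measurable_law_apply 0 (measurableSet_escape l)
  have hmp := measurePreserving_shiftEnv μ (vec a)
  have hle : f ≤ᵐ[envLaw μ] f ∘ shiftEnv (vec a) := by
    filter_upwards [hgood] with ω hω
    have := escape_mono (a := a) hω hj hla 0 1
    simp only [zero_add, one_smul] at this
    exact this.trans (law_escape_translate ω l (vec a)).le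
  have heq : f =ᵐ[envLaw μ] f ∘ shiftEnv (vec a) := by
    refine ae_eq_of_ae_le_of_lintegral_le hle ?_ (hf.comp hmp.measurable).aemeasurable
      (hmp.lintegral_comp hf).le
    refine ne_top_of_le_ne_top ENNReal.one_ne_top ?_
    calc ∫⁻ ω, f ω ∂envLaw μ ≤ ∫⁻ _, (1 : ℝ≥0∞) ∂envLaw μ :=
          lintegral_mono fun ω => prob_le_one
      _ = 1 := by simp
  have hv : vec a k ≠ 0 := by cases hb' : b <;> simp [ha, vec, hb']
  obtain ⟨c, hconst⟩ := (ergodic_shiftEnv μ hv).ae_eq_const_of_ae_eq_comp_ae
    hf.stronglyMeasurable.aestronglyMeasurable heq.symm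
  have hall : ∀ᵐ ω ∂envLaw μ, Elliptic ω ∧ ∀ x, law ω x (escape l) = c := by
    have h : ∀ x : Site d, ∀ᵐ ω ∂envLaw μ, f (shiftEnv x ω) = c := fun x =>
      (measurePreserving_shiftEnv μ x).quasiMeasurePreserving.ae hconst
    filter_upwards [hgood, ae_all_iff.2 h] with ω hω hx
    exact ⟨hω.ell, fun x => (law_escape_translate ω l x).trans (hx x)⟩
  obtain ⟨ω, hω, hx⟩ := hall.exists
  exact ⟨c, zero_or_one_of_const hω l hx, hall⟩

end Vale.Agent.P147
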