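import Vale.Agent.P147.Exit

/-!
# Escape probabilities are monotone along the axis
-/

namespace Vale.Agent.P147

open MeasureTheory Set Finset Filter Topology
open scoped ENNReal

variable {d : ℕ} [Nonempty (Fin d)]

/-- The inner product of a lattice point with the direction. -/
noncomputable def dot (l : Fin d → ℝ) (x : Site d) : ℝ := ∑ i, (x i : ℝ) * l i

/-- The coordinate along the oriented axis `a`. -/
def ht (a : Step d) (x : Site d) : ℤ := if a.2 then x a.1 else -x a.1

omit [Nonempty (Fin d)] in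
lemma dot_add_nsmul (l : Fin d → ℝ) (a : Step d) (x : Site d) (n : ℕ) :
    dot l (x + n • vec a) = dot l x + n * dot l (vec a) := by
  simp only [dot, Pi.add_apply, Pi.smul_apply, nsmul_eq_mul, Finset.mul_sum,
    ← Finset.sum_add_distrib]
  refine Finset.sum_congr rfl fun i _ => ?_
  simp only [Pi.natCast_apply, Pi.mul_apply]
  push_cast
  ring

omit [Nonempty (Fin d)] in
lemma ht_add_nsmul (a : Step d) (x : Site d) (n : ℕ) :
    ht a (x + n • vec a) = ht a x + n := by
  obtain ⟨k, b⟩ := a
  cases b <;> simp [ht, vec, add_comm]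

omit [Nonempty (Fin d)] in
lemma side_add_nsmul (a : Step d) (W : ℕ) (x : Site d) (n : ℕ) :
    x + n • vec a ∈ side a.1 W ↔ x ∈ side a.1 W := by
  have : ∀ i, i ≠ a.1 → (x + n • vec a) i = x i := by
    intro i hi
    simp [vec, Pi.single_eq_of_ne hi]
  exact forall₂_congr fun i hi => by rw [this i hi]

omit [Nonempty (Fin d)] in
/-- The maximum principle: boundary data monotone along the axis give monotone harmonic
extensions. -/
theorem mono_of_harmonic {a : Step d} {j : Fin d} {r : Step d → ℝ} {ω : Env d}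
    (h : GoodEnv a.1 r ω) (hj : j ≠ a.1) {B : Set (Site d)} (hB : B.Finite) {g : Site d → ℝ}
    (harm : ∀ x ∈ B, g x = ∑ e, ω x e * g (x + vec e))
    (bdry : ∀ x, ∀ n : ℕ, (x ∉ B ∨ x + n • vec a ∉ B) → g x ≤ g (x + n • vec a)) :
    ∀ x, ∀ n : ℕ, g x ≤ g (x + n • vec a) := by
  classical
  intro x0 n0
  by_contra hlt
  push Not at hlt
  set P : Set (Site d × Site d) := {p ∈ B ×ˢ B | ∃ n : ℕ, p.2 = p.1 + n • vec a}
  have hP : P.Finite := (hB.prod hB).subset fun p hp => hp.1
  have hx0 : x0 ∈ B ∧ x0 + n0 • vec a ∈ B := by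
    constructor <;>
    · by_contra hc
      have := bdry x0 n0 (by tauto)
      linarith
  obtain ⟨p0, hp0, hmax⟩ := Set.exists_max_image P (fun p => g p.1 - g p.2) hP
    ⟨(x0, x0 + n0 • vec a), ⟨hx0.1, hx0.2⟩, n0, rfl⟩
  set D := g p0.1 - g p0.2
  have hD : 0 < D := lt_of_lt_of_le (sub_pos.2 hlt)
    (hmax (x0, x0 + n0 • vec a) ⟨⟨hx0.1, hx0.2⟩, n0, rfl⟩)
  have hall : ∀ x, ∀ n : ℕ, g x - g (x + n • vec a) ≤ D := by
    intro x n
    by_cases hc : x ∈ B ∧ x + n • vec a ∈ B
    · exact hmax (x, x + n • vec a) ⟨⟨hc.1, hc.2⟩, n, rfl⟩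
    · have := bdry x n (by tauto)
      linarith
  obtain ⟨⟨i, i'⟩, ⟨hmem, hD'⟩, htop⟩ :=
    Set.exists_max_image {p ∈ P | g p.1 - g p.2 = D} (fun p => p.1 j)
      (hP.subset fun p hp => hp.1) ⟨p0, hp0, rfl⟩
  obtain ⟨⟨hiB, hi'B⟩, n, hn⟩ := hmem
  dsimp only at hn hD' hiB hi'B
  subst hn
  obtain _ | n := n
  · simp at hD'; linarith
  set k := a.1
  -- the oriented axis neighbours
  have hopp : ∀ e : Step d, e.1 = k → e = a ∨ vec e + vec a = 0 := by
    rintro ⟨i, b⟩ (rfl : i = k)
    obtain ⟨k', b'⟩ := a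
    cases b <;> cases b' <;> simp [k, vec, ← Pi.single_add]
  have hup : ∀ e : Step d, e.1 = k → g (i + vec e) ≤ g i := by
    intro e he
    rcases hopp e he with rfl | h0
    · have := hall (i + vec e) n
      rw [show i + vec e + n • vec e = i + (n + 1) • vec e by rw [succ_nsmul]; abel] at this
      linarith
    · have := hall (i + vec e) (n + 2)
      rw [show i + vec e + (n + 2) • vec a = i + (n + 1) • vec a + (vec e + vec a) by
        rw [succ_nsmul _ (n + 1)]; abel, h0, add_zero] at this
      linarith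
  have hdown : ∀ e : Step d, e.1 = k →
      g (i + (n + 1) • vec a) ≤ g (i + (n + 1) • vec a + vec e) := by
    intro e he
    rcases hopp e he with rfl | h0
    · have := hall i (n + 2)
      rw [show i + (n + 2) • vec e = i + (n + 1) • vec e + vec e by
        rw [succ_nsmul _ (n + 1)]; abel] at this
      linarith
    · have := hall i n
      rw [show i + (n + 1) • vec a + vec e = i + n • vec a + (vec e + vec a) by
        rw [succ_nsmul]; abel, h0, add_zero]
      linarith
  have hc : ∀ x, 0 < offMass k (ω x) := fun x => offMass_pos hj (h.ell x)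
  set K : Site d → ℝ := fun x => ∑ e ∈ lats k, r e * g (x + vec e) with hK
  have hsplit : ∀ x, ∑ e, ω x e * g (x + vec e) =
      ω x (k, true) * g (x + vec (k, true)) + ω x (k, false) * g (x + vec (k, false)) +
        offMass k (ω x) * K x := by
    intro x
    rw [sum_split k, hK, Finset.mul_sum]
    congr 1
    refine Finset.sum_congr rfl fun e he => ?_
    rw [h.lat x e (by simpa [lats] using he)]
    ring
  have hKi : g i ≤ K i := by
    have h1 := harm i hiB
    rw [hsplit] at h1
    have h2 := mul_le_mul_of_nonneg_left (hup (k, true) rfl) ((h.ell i).1 (k, true)).le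
    have h3 := mul_le_mul_of_nonneg_left (hup (k, false) rfl) ((h.ell i).1 (k, false)).le
    refine le_of_mul_le_mul_left (a := offMass k (ω i)) ?_ (hc i)
    simp only [offMass] at h1 ⊢
    nlinarith
  have hKj : K (i + (n + 1) • vec a) ≤ g (i + (n + 1) • vec a) := by
    set y := i + (n + 1) • vec a
    have h1 := harm y hi'B
    rw [hsplit] at h1
    have h2 := mul_le_mul_of_nonneg_left (hdown (k, true) rfl) ((h.ell y).1 (k, true)).le
    have h3 := mul_le_mul_of_nonneg_left (hdown (k, false) rfl) ((h.ell y).1 (k, false)).le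
    refine le_of_mul_le_mul_left (a := offMass k (ω y)) ?_ (hc y)
    simp only [offMass] at h1 ⊢
    nlinarith
  have hz : ∑ e ∈ lats k, r e * (D - (g (i + vec e) - g (i + vec e + (n + 1) • vec a))) ≤ 0 := by
    have : ∑ e ∈ lats k, r e * (D - (g (i + vec e) - g (i + vec e + (n + 1) • vec a))) =
        D - (K i - K (i + (n + 1) • vec a)) := by
      simp only [hK, mul_sub, Finset.sum_sub_distrib, ← Finset.sum_mul, h.r_sum hj, one_mul,
        show ∀ e, i + vec e + (n + 1) • vec a = i + (n + 1) • vec a + vec e from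
          fun e => by abel]
    rw [this]
    linarith
  have hnn : ∀ e ∈ lats k,
      0 ≤ r e * (D - (g (i + vec e) - g (i + vec e + (n + 1) • vec a))) := fun e he =>
    mul_nonneg (h.r_pos hj (by simpa [lats] using he)).le (by linarith [hall (i + vec e) (n + 1)])
  have he : ((j, true) : Step d) ∈ lats k := by simp [lats, hj]
  have hzero := (Finset.sum_eq_zero_iff_of_nonneg hnn).1
    (le_antisymm hz (Finset.sum_nonneg hnn)) _ he
  rcases mul_eq_zero.1 hzero with h0 | h0
  · exact absurd h0 (h.r_pos hj (show ((j, true) : Step d).1 ≠ k from hj)).ne'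
  · set y := i + vec (j, true)
    have hin : y ∈ B ∧ y + (n + 1) • vec a ∈ B := by
      constructor <;>
      · by_contra hc'
        have := bdry y (n + 1) (by tauto)
        linarith
    have := htop (y, y + (n + 1) • vec a)
      ⟨⟨⟨hin.1, hin.2⟩, n + 1, rfl⟩, by dsimp only; linarith⟩
    simp [y, vec] at this

/-- The event that the path, at the first time it is outside `B`, continues in `C`. -/
def exitSet (B : Set (Site d)) (C : Set (ℕ → Site d)) : Set (ℕ → Site d) :=
  {X | ∃ n, (∀ i < n, X i ∈ B) ∧ X n ∉ B ∧ (fun i => X (n + i)) ∈ C}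

omit [Nonempty (Fin d)] in
lemma measurableSet_exitSet (B : Set (Site d)) {C : Set (ℕ → Site d)} (hC : MeasurableSet C) :
    MeasurableSet (exitSet B C) := by
  have : exitSet B C = ⋃ n, (⋂ i, ⋂ (_ : i < n), (fun X : ℕ → Site d => X i) ⁻¹' B) ∩
      ((fun X : ℕ → Site d => X n) ⁻¹' Bᶜ ∩ (fun X : ℕ → Site d => fun i => X (n + i)) ⁻¹' C) := by
    ext; simp [exitSet]
  rw [this]
  exact MeasurableSet.iUnion fun n => (MeasurableSet.iInter fun i => MeasurableSet.iInter fun _ =>
    measurable_pi_apply i MeasurableSet.of_discrete).inter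
    ((measurable_pi_apply n MeasurableSet.of_discrete).inter
      ((measurable_pi_lambda _ fun i => measurable_pi_apply (n + i)) hC))

lemma exit_off {ω : Env d} {B : Set (Site d)} {C : Set (ℕ → Site d)} {x : Site d} (hx : x ∉ B) :
    law ω x (exitSet B C) = law ω x C := by
  refine measure_congr ?_
  filter_upwards [ae_law_zero ω x] with X hX
  refine propext ⟨?_, fun hC => ⟨0, by simp, by rwa [hX], ?_⟩⟩
  · rintro ⟨_ | n, hlt, -, hC⟩
    · simp only [zero_add] at hC
      exact hC
    · exact absurd (hX ▸ hlt 0 (Nat.succ_pos n)) hx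
  · simp only [zero_add]
    exact hC

lemma exit_harm {ω : Env d} (hω : Elliptic ω) {B : Set (Site d)} {C : Set (ℕ → Site d)}
    (hC : MeasurableSet C) {x : Site d} (hx : x ∈ B) :
    (law ω x (exitSet B C)).toReal =
      ∑ e, ω x e * (law ω (x + vec e) (exitSet B C)).toReal := by
  have : cons x ⁻¹' exitSet B C = exitSet B C := by
    ext X
    constructor
    · rintro ⟨_ | n, hlt, hn, hc⟩
      · exact absurd hx hn
      · exact ⟨n, fun i hi => hlt (i + 1) (by omega), hn,
          by simpa [cons, Nat.add_right_comm] using hc⟩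
    · rintro ⟨n, hlt, hn, hc⟩
      refine ⟨n + 1, fun i hi => ?_, hn, by simpa [cons, Nat.add_right_comm] using hc⟩
      cases i with
      | zero => exact hx
      | succ i => exact hlt i (by omega)
  rw [law_step hω x (measurableSet_exitSet B hC), this, ENNReal.toReal_sum]
  · simp only [ENNReal.toReal_mul]
    exact Finset.sum_congr rfl fun e _ => by rw [ENNReal.toReal_ofReal ((hω x).1 e).le]
  · exact fun e _ => ENNReal.mul_ne_top ENNReal.ofReal_ne_top (measure_ne_top _ _)

theorem mono_exit {a : Step d} {j : Fin d} {r : Step d → ℝ} {ω : Env d}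
    (h : GoodEnv a.1 r ω) (hj : j ≠ a.1) {B : Set (Site d)} (hB : B.Finite)
    {C : Set (ℕ → Site d)} (hC : MeasurableSet C)
    (bdry : ∀ x, ∀ n : ℕ, (x ∉ B ∨ x + n • vec a ∉ B) →
      law ω x (exitSet B C) ≤ law ω (x + n • vec a) (exitSet B C)) (x : Site d) (n : ℕ) :
    law ω x (exitSet B C) ≤ law ω (x + n • vec a) (exitSet B C) := by
  refine (ENNReal.toReal_le_toReal (measure_ne_top _ _) (measure_ne_top _ _)).1 ?_
  exact mono_of_harmonic h hj hB (g := fun x => (law ω x (exitSet B C)).toReal)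
    (fun y hy => exit_harm h.ell hC hy)
    (fun y m hm => ENNReal.toReal_mono (measure_ne_top _ _) (bdry y m hm)) x n

omit [Nonempty (Fin d)] in
lemma finite_box (a : Step d) (W L : ℕ) :
    {x : Site d | x ∈ side a.1 W ∧ -(L : ℤ) < ht a x ∧ ht a x < L}.Finite := by
  classical
  refine Set.Finite.subset (Set.Finite.pi (t := fun i : Fin d =>
    Set.Icc (-((max W L : ℕ) : ℤ)) (max W L : ℕ)) fun i => Set.finite_Icc _ _) ?_
  rintro x ⟨h1, h2, h3⟩ i _
  by_cases hi : i = a.1
  · subst hi
    obtain ⟨k, b⟩ := a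
    simp only [ht] at h2 h3
    cases b <;> simp at h2 h3 ⊢ <;> omega
  · have := abs_le.1 (h1 i hi)
    simp only [Set.mem_Icc]
    omega

omit [Nonempty (Fin d)] in
lemma first_exit {P : ℕ → Prop} (h : ∃ n, ¬P n) : ∃ n, (∀ i < n, P i) ∧ ¬P n := by
  classical
  exact ⟨Nat.find h, fun i hi => not_not.1 (Nat.find_min h hi), Nat.find_spec h⟩

omit [Nonempty (Fin d)] in
lemma first_exit_eq {P : ℕ → Prop} {n m : ℕ} (h : ∀ i < n, P i) (hn : ¬P n)
    (h' : ∀ i < m, P i) (hm : ¬P m) : n = m := by
  rcases lt_trichotomy n m with hlt | hlt | hlt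
  · exact absurd (h' n hlt) hn
  · exact hlt
  · exact absurd (h m hlt) hm

omit [Nonempty (Fin d)] in
lemma eventually_abs_lt (a : Step d) (X : ℕ → Site d) (T : ℕ) :
    ∀ᶠ L : ℕ in atTop, ∀ i ≤ T, -(L : ℤ) < ht a (X i) ∧ ht a (X i) < L := by
  have : ∀ i ∈ Finset.range (T + 1),
      ∀ᶠ L : ℕ in atTop, -(L : ℤ) < ht a (X i) ∧ ht a (X i) < L := fun i _ => by
    filter_upwards [eventually_gt_atTop (ht a (X i)).natAbs] with L hL
    omega
  filter_upwards [(eventually_all_finset _).2 this] with L hL i hi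
  exact hL i (Finset.mem_range.2 (by omega))

omit [Nonempty (Fin d)] in
lemma eventually_side (k : Fin d) (X : ℕ → Site d) (T : ℕ) :
    ∀ᶠ W : ℕ in atTop, ∀ i ≤ T, X i ∈ side k W := by
  have : ∀ i ∈ Finset.range (T + 1), ∀ m : Fin d,
      ∀ᶠ W : ℕ in atTop, |X i m| ≤ (W : ℤ) := fun i _ m => by
    filter_upwards [eventually_ge_atTop (X i m).natAbs] with W hW
    rw [Int.abs_eq_natAbs]; omega
  filter_upwards [(eventually_all_finset _).2 fun i hi => eventually_all.2 (this i hi)]
    with W hW i hi m _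
  exact hW i (Finset.mem_range.2 (by omega)) m

omit [Nonempty (Fin d)] in
lemma measurableSet_apply (p : Site d → Prop) (n : ℕ) :
    MeasurableSet {X : ℕ → Site d | p (X n)} := by
  have h : MeasurableSet ((fun X : ℕ → Site d => X n) ⁻¹' {x | p x}) :=
    measurable_pi_apply n MeasurableSet.of_discrete
  exact h

omit [Nonempty (Fin d)] in
lemma measurableSet_le_dot (l : Fin d → ℝ) (M : ℝ) (n : ℕ) :
    MeasurableSet {X : ℕ → Site d | M ≤ dot l (X n)} :=
  measurableSet_apply (fun x => M ≤ dot l x) n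

/-- Staying in a half space forever. -/
def stay (l : Fin d → ℝ) (M : ℝ) : Set (ℕ → Site d) := {X | ∀ n, M ≤ dot l (X n)}

omit [Nonempty (Fin d)] in
lemma measurableSet_stay (l : Fin d → ℝ) (M : ℝ) : MeasurableSet (stay l M) := by
  have : stay l M = ⋂ n, {X : ℕ → Site d | M ≤ dot l (X n)} := by ext; simp [stay]
  rw [this]
  exact MeasurableSet.iInter fun n =>
    measurableSet_le_dot l M n

variable {a : Step d} {j : Fin d} {r : Step d → ℝ} {ω : Env d} {l : Fin d → ℝ}

theorem stay_mono (h : GoodEnv a.1 r ω) (hj : j ≠ a.1) (hl : 0 ≤ dot l (vec a)) (M : ℝ)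
    (x : Site d) (n : ℕ) :
    law ω x (stay l M) ≤ law ω (x + n • vec a) (stay l M) := by
  have hdot : ∀ y, ∀ m : ℕ, dot l y ≤ dot l (y + m • vec a) := fun y m => by
    rw [dot_add_nsmul]; nlinarith [show (0 : ℝ) ≤ m from Nat.cast_nonneg m]
  -- finite boxes
  have hbox : ∀ W L : ℕ, ∀ y, ∀ m : ℕ,
      law ω y (exitSet {z | z ∈ side a.1 W ∧ -(L : ℤ) < ht a z ∧ ht a z < L ∧ M ≤ dot l z}
        {X | M ≤ dot l (X 0) ∧ -(L : ℤ) < ht a (X 0)}) ≤
      law ω (y + m • vec a)
        (exitSet {z | z ∈ side a.1 W ∧ -(L : ℤ) < ht a z ∧ ht a z < L ∧ M ≤ dot l z}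
          {X | M ≤ dot l (X 0) ∧ -(L : ℤ) < ht a (X 0)}) := by
    intro W L
    set B : Set (Site d) := {z | z ∈ side a.1 W ∧ -(L : ℤ) < ht a z ∧ ht a z < L ∧ M ≤ dot l z}
    set C : Set (ℕ → Site d) := {X | M ≤ dot l (X 0) ∧ -(L : ℤ) < ht a (X 0)}
    have hC : MeasurableSet C :=
      measurableSet_apply (fun z => M ≤ dot l z ∧ -(L : ℤ) < ht a z) 0
    have hval : ∀ z, law ω z C = if M ≤ dot l z ∧ -(L : ℤ) < ht a z then 1 else 0 := by
      intro z
      split_ifs with hz
      · refine (measure_congr ?_).trans measure_univ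
        filter_upwards [ae_law_zero ω z] with X hX
        exact eq_true (show X ∈ C from by simp only [C, Set.mem_ofPred_eq, hX]; exact hz)
      · refine measure_mono_null (t := {X | X 0 ≠ z}) ?_ (ae_iff.1 (ae_law_zero ω z))
        intro X hX hX0
        simp only [C, Set.mem_ofPred_eq, hX0] at hX
        exact hz hX
    refine mono_exit h hj ((finite_box a W L).subset fun z hz => ⟨hz.1, hz.2.1, hz.2.2.1⟩) hC ?_
    intro y m hm
    by_cases hy : y ∈ B
    · have hz := hm.resolve_left (not_not.2 hy)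
      rw [exit_off hz, hval, if_pos]
      · exact prob_le_one
      · refine ⟨hy.2.2.2.trans (hdot y m), ?_⟩
        rw [ht_add_nsmul]; have := hy.2.1; omega
    · rw [exit_off hy, hval]
      split_ifs with hc
      · have hz : y + m • vec a ∉ B := fun hz => hy
          ⟨(side_add_nsmul a W y m).1 hz.1, hc.2,
            lt_of_le_of_lt (by rw [ht_add_nsmul]; omega) hz.2.2.1, hc.1⟩
        rw [exit_off hz, hval, if_pos ⟨hc.1.trans (hdot y m), by rw [ht_add_nsmul]; omega⟩]
      · exact bot_le
  -- cylinders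
  set S : ℕ → Set (ℕ → Site d) :=
    fun W => {X | ∀ i, (∀ m < i, X m ∈ side a.1 W) → M ≤ dot l (X i)} with hS
  have hSm : ∀ W, MeasurableSet (S W) := by
    intro W
    have : S W = ⋂ i, ((⋂ m, ⋂ (_ : m < i), (fun X : ℕ → Site d => X m) ⁻¹' side a.1 W)ᶜ ∪
        {X : ℕ → Site d | M ≤ dot l (X i)}) := by
      ext X; simp only [hS, Set.mem_ofPred_eq, Set.mem_iInter, Set.mem_union, Set.mem_compl_iff,
        Set.mem_preimage, imp_iff_not_or]
    rw [this]
    exact MeasurableSet.iInter fun i =>
      ((MeasurableSet.iInter fun m => MeasurableSet.iInter fun _ =>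
        measurable_pi_apply m MeasurableSet.of_discrete).compl).union (measurableSet_le_dot l M i)
  have hcyl : ∀ W, ∀ y, ∀ m : ℕ, law ω y (S W) ≤ law ω (y + m • vec a) (S W) := by
    intro W y m
    have hlim : ∀ z, Tendsto (fun L : ℕ =>
        law ω z (exitSet {z | z ∈ side a.1 W ∧ -(L : ℤ) < ht a z ∧ ht a z < L ∧ M ≤ dot l z}
          {X | M ≤ dot l (X 0) ∧ -(L : ℤ) < ht a (X 0)})) atTop (𝓝 (law ω z (S W))) := by
      intro z
      refine tendsto_measure_of_ae_tendsto_indicator_of_isFiniteMeasure atTop (hSm W)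
        (fun L => measurableSet_exitSet _ (measurableSet_apply (fun z => M ≤ dot l z ∧ -(L : ℤ) < ht a z) 0)) ?_
      filter_upwards [ae_exit h hj W z] with X hX
      obtain ⟨T, hT, hTout⟩ := first_exit hX
      filter_upwards [eventually_abs_lt a X T] with L hL
      constructor
      · rintro ⟨n, hn, hnout, hnC⟩
        simp only [Set.mem_ofPred_eq, add_zero] at hnC
        have hnT : n ≤ T := by
          by_contra hlt
          exact hTout (hn T (by omega)).1
        have hside : X n ∉ side a.1 W := fun hs =>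
          hnout ⟨hs, hnC.2, (hL n hnT).2, hnC.1⟩
        intro i hi
        have hin : i ≤ n := by
          by_contra hlt
          exact hside (hi n (by omega))
        rcases hin.lt_or_eq with hlt | rfl
        · exact (hn i hlt).2.2.2
        · exact hnC.1
      · intro hX'
        exact ⟨T, fun i hi => ⟨hT i hi, (hL i hi.le).1, (hL i hi.le).2,
          hX' i fun m hm => hT m (hm.trans hi)⟩, fun hB => hTout hB.1,
          by simpa using ⟨hX' T hT, (hL T le_rfl).1⟩⟩
    exact le_of_tendsto_of_tendsto' (hlim y) (hlim _) fun L => hbox W L y m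
  have hlim : ∀ z, Tendsto (fun W => law ω z (S W)) atTop (𝓝 (law ω z (stay l M))) := by
    intro z
    refine tendsto_measure_of_tendsto_indicator_of_isFiniteMeasure _ (law ω z) hSm fun X => ?_
    by_cases hX : X ∈ stay l M
    · exact Eventually.of_forall fun W => iff_of_true (fun i _ => hX i) hX
    · obtain ⟨T, hT⟩ := not_forall.1 hX
      filter_upwards [eventually_side a.1 X T] with W hW
      exact iff_of_false (fun hS' => hT (hS' T fun m hm => hW m hm.le)) hX
  exact le_of_tendsto_of_tendsto' (hlim x) (hlim _) fun W => hcyl W x n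

/-- Being eventually in a half space. -/
def eventuallyAbove (l : Fin d → ℝ) (M : ℝ) : Set (ℕ → Site d) :=
  {X | ∃ N, ∀ n ≥ N, M ≤ dot l (X n)}

omit [Nonempty (Fin d)] in
lemma measurableSet_eventuallyAbove (l : Fin d → ℝ) (M : ℝ) :
    MeasurableSet (eventuallyAbove l M) := by
  have : eventuallyAbove l M = ⋃ N, ⋂ n, ⋂ (_ : N ≤ n),
      {X : ℕ → Site d | M ≤ dot l (X n)} := by ext; simp [eventuallyAbove]
  rw [this]
  exact MeasurableSet.iUnion fun N => MeasurableSet.iInter fun n => MeasurableSet.iInter fun _ =>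
    measurableSet_le_dot l M n

theorem eventuallyAbove_mono (h : GoodEnv a.1 r ω) (hj : j ≠ a.1) (hl : 0 ≤ dot l (vec a)) (M : ℝ)
    (x : Site d) (n : ℕ) :
    law ω x (eventuallyAbove l M) ≤ law ω (x + n • vec a) (eventuallyAbove l M) := by
  have hu := stay_mono h hj hl M
  have hbox : ∀ W L : ℕ, ∀ y, ∀ m : ℕ,
      law ω y (exitSet {z | z ∈ side a.1 W ∧ -(L : ℤ) < ht a z ∧ ht a z < L}
        {X | -(L : ℤ) < ht a (X 0) ∧ ((L : ℤ) ≤ ht a (X 0) ∨ X ∈ stay l M)}) ≤
      law ω (y + m • vec a) (exitSet {z | z ∈ side a.1 W ∧ -(L : ℤ) < ht a z ∧ ht a z < L}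
        {X | -(L : ℤ) < ht a (X 0) ∧ ((L : ℤ) ≤ ht a (X 0) ∨ X ∈ stay l M)}) := by
    intro W L
    set B : Set (Site d) := {z | z ∈ side a.1 W ∧ -(L : ℤ) < ht a z ∧ ht a z < L}
    set C : Set (ℕ → Site d) :=
      {X | -(L : ℤ) < ht a (X 0) ∧ ((L : ℤ) ≤ ht a (X 0) ∨ X ∈ stay l M)}
    have hC : MeasurableSet C :=
      (measurableSet_apply (fun z => -(L : ℤ) < ht a z) 0).inter
      ((measurableSet_apply (fun z => (L : ℤ) ≤ ht a z) 0).union
        (measurableSet_stay l M))
    have hval : ∀ z, law ω z C = if -(L : ℤ) < ht a z then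
        (if (L : ℤ) ≤ ht a z then 1 else law ω z (stay l M)) else 0 := by
      intro z
      split_ifs with h1 h2
      · refine (measure_congr ?_).trans measure_univ
        filter_upwards [ae_law_zero ω z] with X hX
        exact eq_true (show X ∈ C from by simp only [C, Set.mem_ofPred_eq, hX]; exact ⟨h1, Or.inl h2⟩)
      · refine measure_congr ?_
        filter_upwards [ae_law_zero ω z] with X hX
        exact propext ⟨fun hc => hc.2.resolve_left (hX.symm ▸ h2),
          fun hs => ⟨hX.symm ▸ h1, Or.inr hs⟩⟩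
      · refine measure_mono_null (t := {X | X 0 ≠ z}) ?_ (ae_iff.1 (ae_law_zero ω z))
        intro X hX hX0
        simp only [C, Set.mem_ofPred_eq, hX0] at hX
        exact h1 hX.1
    refine mono_exit h hj (finite_box a W L) hC ?_
    intro y m hm
    by_cases hy : y ∈ B
    · have hz := hm.resolve_left (not_not.2 hy)
      have h1 : -(L : ℤ) < ht a (y + m • vec a) := by rw [ht_add_nsmul]; have := hy.2.1; omega
      have h2 : (L : ℤ) ≤ ht a (y + m • vec a) := by
        by_contra hlt
        exact hz ⟨(side_add_nsmul a W y m).2 hy.1, h1, not_le.1 hlt⟩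
      rw [exit_off hz, hval, if_pos h1, if_pos h2]
      exact prob_le_one
    · rw [exit_off hy, hval]
      by_cases hc : -(L : ℤ) < ht a y
      · have hz : y + m • vec a ∉ B := fun hz => hy
          ⟨(side_add_nsmul a W y m).1 hz.1, hc, lt_of_le_of_lt (by rw [ht_add_nsmul]; omega) hz.2.2⟩
        have h1 : -(L : ℤ) < ht a (y + m • vec a) := by rw [ht_add_nsmul]; omega
        rw [exit_off hz, hval, if_pos hc, if_pos h1]
        by_cases h2 : (L : ℤ) ≤ ht a y
        · rw [if_pos h2, if_pos (by rw [ht_add_nsmul]; omega)]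
        · rw [if_neg h2]
          split_ifs
          · exact prob_le_one
          · exact hu y m
      · rw [if_neg hc]; exact bot_le
  set R : ℕ → Set (ℕ → Site d) := fun W => exitSet (side a.1 W) (stay l M) with hR
  have hcyl : ∀ W, ∀ y, ∀ m : ℕ, law ω y (R W) ≤ law ω (y + m • vec a) (R W) := by
    intro W y m
    have hlim : ∀ z, Tendsto (fun L : ℕ =>
        law ω z (exitSet {z | z ∈ side a.1 W ∧ -(L : ℤ) < ht a z ∧ ht a z < L}
          {X | -(L : ℤ) < ht a (X 0) ∧ ((L : ℤ) ≤ ht a (X 0) ∨ X ∈ stay l M)}))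
        atTop (𝓝 (law ω z (R W))) := by
      intro z
      refine tendsto_measure_of_ae_tendsto_indicator_of_isFiniteMeasure atTop
        (measurableSet_exitSet _ (measurableSet_stay l M))
        (fun L => measurableSet_exitSet _ ((measurableSet_apply (fun z => -(L : ℤ) < ht a z) 0).inter
          ((measurableSet_apply (fun z => (L : ℤ) ≤ ht a z) 0).union
            (measurableSet_stay l M)))) ?_
      filter_upwards [ae_exit h hj W z] with X hX
      obtain ⟨T, hT, hTout⟩ := first_exit hX
      filter_upwards [eventually_abs_lt a X T] with L hL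
      constructor
      · rintro ⟨n, hn, hnout, hnC⟩
        simp only [Set.mem_ofPred_eq, add_zero] at hnC
        have hnT : n = T := first_exit_eq (P := fun i => X i ∈ side a.1 W ∧
            -(L : ℤ) < ht a (X i) ∧ ht a (X i) < L) hn hnout
          (fun i hi => ⟨hT i hi, hL i hi.le⟩) (fun hB => hTout hB.1)
        subst hnT
        exact ⟨n, hT, hTout, hnC.2.resolve_left (not_le.2 (hL n le_rfl).2)⟩
      · rintro ⟨n, hn, hnout, hnC⟩
        obtain rfl := first_exit_eq (P := fun i => X i ∈ side a.1 W) hn hnout hT hTout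
        exact ⟨n, fun i hi => ⟨hT i hi, hL i hi.le⟩, fun hB => hTout hB.1,
          by simpa using (hL n le_rfl).1, Or.inr hnC⟩
    exact le_of_tendsto_of_tendsto' (hlim y) (hlim _) fun L => hbox W L y m
  have hlim : ∀ z, Tendsto (fun W => law ω z (R W)) atTop
      (𝓝 (law ω z (eventuallyAbove l M))) := by
    intro z
    refine tendsto_measure_of_ae_tendsto_indicator_of_isFiniteMeasure atTop
      (measurableSet_eventuallyAbove l M)
      (fun W => measurableSet_exitSet _ (measurableSet_stay l M)) ?_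
    filter_upwards [ae_all_iff.2 fun W => ae_exit h hj W z] with X hX
    by_cases hE : X ∈ eventuallyAbove l M
    · obtain ⟨N, hN⟩ := hE
      filter_upwards [eventually_side a.1 X N] with W hW
      refine iff_of_true ?_ ⟨N, hN⟩
      obtain ⟨T, hT, hTout⟩ := first_exit (hX W)
      refine ⟨T, hT, hTout, fun i => hN _ ?_⟩
      by_contra hlt
      exact hTout (hW T (by omega))
    · refine Eventually.of_forall fun W => iff_of_false ?_ hE
      rintro ⟨T, -, -, hC⟩
      refine hE ⟨T, fun n hn => ?_⟩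
      have := hC (n - T)
      simp only [Nat.add_sub_cancel' hn] at this
      exact this
  exact le_of_tendsto_of_tendsto' (hlim x) (hlim _) fun W => hcyl W x n

/-- Escape in the direction `l`. -/
def escape (l : Fin d → ℝ) : Set (ℕ → Site d) :=
  {X | Tendsto (fun n => dot l (X n)) atTop atTop}

omit [Nonempty (Fin d)] in
lemma escape_eq (l : Fin d → ℝ) : escape l = ⋂ M : ℕ, eventuallyAbove l M := by
  ext X
  simp only [escape, Set.mem_ofPred_eq, Set.mem_iInter, eventuallyAbove, tendsto_atTop]
  constructor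
  · exact fun h M => eventually_atTop.1 (h M)
  · intro h b
    obtain ⟨M, hM⟩ := exists_nat_ge b
    exact (eventually_atTop.2 (h M)).mono fun n hn => hM.trans hn

omit [Nonempty (Fin d)] in
lemma measurableSet_escape (l : Fin d → ℝ) : MeasurableSet (escape l) := by
  rw [escape_eq]
  exact MeasurableSet.iInter fun M => measurableSet_eventuallyAbove l M

theorem escape_mono (h : GoodEnv a.1 r ω) (hj : j ≠ a.1) (hl : 0 ≤ dot l (vec a))
    (x : Site d) (n : ℕ) :
    law ω x (escape l) ≤ law ω (x + n • vec a) (escape l) := by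
  have hlim : ∀ z, Tendsto (fun M : ℕ => law ω z (eventuallyAbove l M)) atTop
      (𝓝 (law ω z (escape l))) := by
    intro z
    rw [escape_eq]
    refine tendsto_measure_iInter_atTop
      (fun M => (measurableSet_eventuallyAbove l M).nullMeasurableSet) ?_ ⟨0, measure_ne_top _ _⟩
    intro M M' hMM X hX
    obtain ⟨N, hN⟩ := hX
    exact ⟨N, fun m hm => (Nat.cast_le.2 hMM).trans (hN m hm)⟩
  exact le_of_tendsto_of_tendsto' (hlim x) (hlim _) fun M => eventuallyAbove_mono h hj hl M x n

end Vale.Agent.P147
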