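import Mathlib

/-!
# Quenched path laws of nearest neighbour random walks in an environment
-/

namespace Vale.Agent.P147

open MeasureTheory Set Finset
open scoped ENNReal

variable {d : ℕ}

abbrev Site (d : ℕ) := Fin d → ℤ

abbrev Step (d : ℕ) := Fin d × Bool

abbrev Env (d : ℕ) := Site d → Step d → ℝ

/-- The lattice vector of a step. -/
def vec (e : Step d) : Site d := Pi.single e.1 (if e.2 then 1 else -1)

/-- The position at time `i` of the path from `x` taking the steps `e`. -/
def pathPos (x : Site d) (e : ℕ → Step d) (i : ℕ) : Site d :=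
  x + ∑ j ∈ Finset.range i, vec (e j)

/-- `Q` is the quenched law of the walk in `ω` started at `x`. -/
def IsQuenchedLaw (ω : Env d) (x : Site d) (Q : Measure (ℕ → Site d)) : Prop :=
  IsProbabilityMeasure Q ∧ ∀ (n : ℕ) (e : ℕ → Step d),
    Q {X | ∀ i ≤ n, X i = pathPos x e i} =
      ∏ i ∈ Finset.range n, ENNReal.ofReal (ω (pathPos x e i) (e i))

def Elliptic (ω : Env d) : Prop := ∀ y, (∀ e, 0 < ω y e) ∧ ∑ e, ω y e = 1

lemma vec_injective : Function.Injective (vec (d := d)) := by
  rintro ⟨i, b⟩ ⟨j, c⟩ h
  have h1 := congrFun h i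
  by_cases hij : i = j
  · subst hij
    cases b <;> cases c <;> simp [vec] at h1 ⊢
  · rcases b with _ | _ <;> simp [vec, hij] at h1

def pre (n : ℕ) (γ : ℕ → Site d) : Set (ℕ → Site d) := {X | ∀ i ≤ n, X i = γ i}

lemma measurableSet_pre (n : ℕ) (γ : ℕ → Site d) : MeasurableSet (pre n γ) := by
  have : pre n γ = ⋂ i, ⋂ (_ : i ≤ n), (fun X : ℕ → Site d => X i) ⁻¹' {γ i} := by
    ext; simp [pre]
  rw [this]
  exact MeasurableSet.iInter fun i => MeasurableSet.iInter fun _ =>
    measurable_pi_apply i (measurableSet_singleton _)

lemma pathPos_succ (x : Site d) (e : ℕ → Step d) (i : ℕ) :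
    pathPos x e (i + 1) = pathPos x e i + vec (e i) := by
  simp [pathPos, Finset.sum_range_succ, add_assoc]

lemma pathPos_update (x : Site d) (e : ℕ → Step d) {n i : ℕ} (h : i ≤ n) (f : Step d) :
    pathPos x (Function.update e n f) i = pathPos x e i := by
  unfold pathPos
  congr 1
  refine Finset.sum_congr rfl fun j hj => ?_
  rw [Function.update_of_ne]
  have := Finset.mem_range.1 hj
  omega

theorem ext_of_pre {μ ν : Measure (ℕ → Site d)} [IsFiniteMeasure μ]
    (h : ∀ n γ, μ (pre n γ) = ν (pre n γ)) (htot : μ univ = ν univ) : μ = ν := by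
  refine ext_of_generate_finite (measurableCylinders fun _ : ℕ => Site d)
    generateFrom_measurableCylinders.symm isPiSystem_measurableCylinders ?_ htot
  intro s hs
  obtain ⟨I, S, hS, rfl⟩ := (mem_measurableCylinders _).1 hs
  set n := I.sup id
  set R : (ℕ → Site d) → (Fin (n + 1) → Site d) := fun X i => X i
  have hR : Measurable R := by fun_prop
  have hm : μ.map R = ν.map R := by
    refine Measure.ext_of_singleton fun a => ?_
    rw [Measure.map_apply hR (measurableSet_singleton _),
      Measure.map_apply hR (measurableSet_singleton _)]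
    have : R ⁻¹' {a} = pre n (fun i => if hi : i < n + 1 then a ⟨i, hi⟩ else 0) := by
      ext X
      simp only [Set.mem_preimage, Set.mem_singleton_iff, pre, Set.mem_setOf_eq, R]
      constructor
      · rintro rfl i hi
        rw [dif_pos (by omega)]
      · intro hX
        funext i
        rw [hX i (Nat.le_of_lt_succ i.2), dif_pos i.2]
    rw [this, h]
  let T : Set (Fin (n + 1) → Site d) := {a | (fun i : I => a ⟨i.1,
    Nat.lt_succ_of_le (Finset.le_sup (f := id) i.2)⟩) ∈ S}
  have hT : cylinder I S = R ⁻¹' T := rfl
  rw [hT, ← Measure.map_apply hR (MeasurableSet.of_discrete),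
    ← Measure.map_apply hR (MeasurableSet.of_discrete), hm]

lemma pre_succ_subset (n : ℕ) {γ δ : ℕ → Site d} (h : ∀ i ≤ n, γ i = δ i) :
    pre (n + 1) γ ⊆ pre n δ := fun X hX i hi => (hX i (by omega)).trans (h i hi)

theorem exists_steps_of_pre_ne_zero {ω : Env d} (hω : Elliptic ω) {x : Site d}
    {Q : Measure (ℕ → Site d)} (hQ : IsQuenchedLaw ω x Q) :
    ∀ n γ, Q (pre n γ) ≠ 0 → ∃ e : ℕ → Step d, ∀ i ≤ n, γ i = pathPos x e i := by
  intro n
  haveI := hQ.1
  induction n with
  | zero =>
    intro γ hγ
    rcases isEmpty_or_nonempty (Step d) with he | he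
    · have := (hω x).2
      simp at this
    obtain ⟨f⟩ := he
    refine ⟨fun _ => f, fun i hi => ?_⟩
    obtain rfl : i = 0 := by omega
    by_contra hne
    apply hγ
    have h1 : Q (pre 0 (pathPos x fun _ => f)) = 1 := by
      have := hQ.2 0 (fun _ => f)
      rw [Finset.range_zero, Finset.prod_empty] at this
      exact this
    have hd : Disjoint (pre 0 γ) (pre 0 (pathPos x fun _ => f)) :=
      Set.disjoint_left.2 fun X hX hX' => hne ((hX 0 le_rfl).symm.trans (hX' 0 le_rfl))
    have h2 : Q (pre 0 γ) + 1 ≤ 1 := by
      calc Q (pre 0 γ) + 1 = Q (pre 0 γ ∪ pre 0 (pathPos x fun _ => f)) := by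
            rw [measure_union hd (measurableSet_pre _ _), h1]
        _ ≤ 1 := prob_le_one
    exact le_antisymm (ENNReal.le_of_add_le_add_right ENNReal.one_ne_top (h2.trans (zero_add 1).ge))
      bot_le
  | succ n ih =>
    intro γ hγ
    have hsub : pre (n + 1) γ ⊆ pre n γ := pre_succ_subset n fun i _ => rfl
    obtain ⟨e, he⟩ := ih γ fun h => hγ (measure_mono_null hsub h)
    by_contra hne
    apply hγ
    set C : Step d → Set (ℕ → Site d) := fun f => pre (n + 1) (pathPos x (Function.update e n f))
    have hC : ∀ f, C f ⊆ pre n γ := fun f =>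
      pre_succ_subset n fun i hi => by rw [pathPos_update x e hi, he i hi]
    have hlast : ∀ f, pathPos x (Function.update e n f) (n + 1) = pathPos x e n + vec f := by
      intro f
      rw [pathPos_succ, pathPos_update x e le_rfl, Function.update_self]
    have hdisjC : Pairwise fun f g => Disjoint (C f) (C g) := by
      intro f g hfg
      refine Set.disjoint_left.2 fun X hX hX' => hfg (vec_injective ?_)
      have := (hX (n + 1) le_rfl).symm.trans (hX' (n + 1) le_rfl)
      rw [hlast, hlast] at this
      exact add_left_cancel this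
    have hd : Disjoint (pre (n + 1) γ) (⋃ f, C f) := by
      refine Set.disjoint_left.2 fun X hX hX' => hne ?_
      obtain ⟨f, hf⟩ := Set.mem_iUnion.1 hX'
      exact ⟨Function.update e n f, fun i hi => (hX i hi).symm.trans (hf i hi)⟩
    have hU : Q (⋃ f, C f) = Q (pre n γ) := by
      rw [measure_iUnion hdisjC (fun f => measurableSet_pre _ _), tsum_fintype]
      have hpn : pre n γ = pre n (pathPos x e) := by
        ext X; exact forall₂_congr fun i hi => by rw [he i hi]
      rw [hpn, show Q (pre n (pathPos x e)) = _ from hQ.2 n e]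
      have : ∀ f, Q (C f) = (∏ i ∈ Finset.range n, ENNReal.ofReal (ω (pathPos x e i) (e i))) *
          ENNReal.ofReal (ω (pathPos x e n) f) := by
        intro f
        rw [show Q (C f) = _ from hQ.2 (n + 1) _, Finset.prod_range_succ,
          pathPos_update x e le_rfl, Function.update_self]
        congr 1
        refine Finset.prod_congr rfl fun i hi => ?_
        have := Finset.mem_range.1 hi
        rw [pathPos_update x e this.le, Function.update_of_ne (by omega)]
      simp_rw [this, ← Finset.mul_sum]
      rw [← ENNReal.ofReal_sum_of_nonneg fun f _ => ((hω _).1 f).le, (hω _).2,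
        ENNReal.ofReal_one, mul_one]
    have h2 : Q (pre (n + 1) γ) + Q (pre n γ) ≤ Q (pre n γ) := by
      calc Q (pre (n + 1) γ) + Q (pre n γ) = Q (pre (n + 1) γ ∪ ⋃ f, C f) := by
            rw [measure_union hd (MeasurableSet.iUnion fun f => measurableSet_pre _ _), hU]
        _ ≤ Q (pre n γ) := measure_mono (Set.union_subset hsub (Set.iUnion_subset hC))
    exact le_antisymm (ENNReal.le_of_add_le_add_right (measure_ne_top _ _)
      (h2.trans (zero_add _).ge)) bot_le

theorem law_unique {ω : Env d} (hω : Elliptic ω) {x : Site d} {Q Q' : Measure (ℕ → Site d)}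
    (hQ : IsQuenchedLaw ω x Q) (hQ' : IsQuenchedLaw ω x Q') : Q = Q' := by
  haveI := hQ.1
  haveI := hQ'.1
  refine ext_of_pre (fun n γ => ?_) (by simp)
  by_cases h : ∃ e : ℕ → Step d, ∀ i ≤ n, γ i = pathPos x e i
  · obtain ⟨e, he⟩ := h
    have : pre n γ = pre n (pathPos x e) := by
      ext X; exact forall₂_congr fun i hi => by rw [he i hi]
    rw [this]
    exact (hQ.2 n e).trans (hQ'.2 n e).symm
  · have h0 := fun R (hR : IsQuenchedLaw ω x R) =>
      not_not.1 (mt (exists_steps_of_pre_ne_zero hω hR n γ) h)
    rw [h0 Q hQ, h0 Q' hQ']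

/-! ### Construction -/

variable [Nonempty (Fin d)]

noncomputable def rank (e : Step d) : Fin (Fintype.card (Step d)) := Fintype.equivFin (Step d) e

noncomputable def lo (p : Step d → ℝ) (e : Step d) : ℝ :=
  ∑ f ∈ univ.filter (fun f => rank f < rank e), max (p f) 0

open Classical in
/-- The step selected by a uniform variable `u`. -/
noncomputable def sel (p : Step d → ℝ) (u : ℝ) : Step d :=
  if h : ∃ e, lo p e < u ∧ u ≤ lo p e + max (p e) 0 then h.choose else Classical.arbitrary _

lemma lo_add_le {p : Step d → ℝ} {e f : Step d} (h : rank e < rank f) :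
    lo p e + max (p e) 0 ≤ lo p f := by
  unfold lo
  rw [← Finset.sum_insert (s := univ.filter (fun g => rank g < rank e)) (a := e)
    (f := fun g => max (p g) 0) (by simp) |>.trans (add_comm _ _)]
  refine Finset.sum_le_sum_of_subset_of_nonneg ?_ fun g _ _ => le_max_right _ _
  intro g hg
  rcases Finset.mem_insert.1 hg with rfl | hg
  · simpa using h
  · simp only [Finset.mem_filter, Finset.mem_univ, true_and] at hg ⊢
    exact hg.trans h

lemma interval_unique {p : Step d → ℝ} {u : ℝ} {e f : Step d}
    (he : lo p e < u ∧ u ≤ lo p e + max (p e) 0) (hf : lo p f < u ∧ u ≤ lo p f + max (p f) 0) :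
    e = f := by
  rcases lt_trichotomy (rank e) (rank f) with h | h | h
  · have := lo_add_le (p := p) h
    linarith
  · exact (Fintype.equivFin (Step d)).injective h
  · have := lo_add_le (p := p) h
    linarith

lemma sel_of_mem {p : Step d → ℝ} {u : ℝ} {e : Step d}
    (he : lo p e < u ∧ u ≤ lo p e + max (p e) 0) : sel p u = e := by
  classical
  have h : ∃ e, lo p e < u ∧ u ≤ lo p e + max (p e) 0 := ⟨e, he⟩
  rw [sel, dif_pos h]
  exact interval_unique h.choose_spec he

lemma measurable_lo (e : Step d) :
    Measurable fun q : (Step d → ℝ) × ℝ => lo q.1 e := by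
  unfold lo
  fun_prop

lemma measurable_sel : Measurable fun q : (Step d → ℝ) × ℝ => sel q.1 q.2 := by
  classical
  set A : Step d → Set ((Step d → ℝ) × ℝ) :=
    fun e => {q | lo q.1 e < q.2 ∧ q.2 ≤ lo q.1 e + max (q.1 e) 0}
  have hA : ∀ e, MeasurableSet (A e) := fun e => by
    have := measurable_lo e
    exact (measurableSet_lt this measurable_snd).inter
      (measurableSet_le measurable_snd (by fun_prop))
  refine measurable_to_countable' fun e => ?_
  have : (fun q : (Step d → ℝ) × ℝ => sel q.1 q.2) ⁻¹' {e} =
      A e ∪ (if e = Classical.arbitrary _ then (⋃ f, A f)ᶜ else ∅) := by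
    ext q
    simp only [Set.mem_preimage, Set.mem_singleton_iff, Set.mem_union]
    by_cases h : ∃ f, lo q.1 f < q.2 ∧ q.2 ≤ lo q.1 f + max (q.1 f) 0
    · obtain ⟨f, hf⟩ := h
      rw [sel_of_mem hf]
      constructor
      · rintro rfl; exact Or.inl hf
      · rintro (h | h)
        · exact interval_unique hf h
        · split_ifs at h
          · exact absurd (Set.mem_iUnion.2 ⟨f, hf⟩) h
          · exact absurd h (Set.notMem_empty _)
    · have hs : sel q.1 q.2 = Classical.arbitrary _ := by rw [sel, dif_neg h]
      rw [hs]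
      constructor
      · rintro rfl
        right
        rw [if_pos rfl]
        exact fun hc => h (Set.mem_iUnion.1 hc)
      · rintro (hc | hc)
        · exact absurd ⟨e, hc⟩ h
        · split_ifs at hc with he
          · exact he.symm
          · exact absurd hc (Set.notMem_empty _)
  rw [this]
  split_ifs
  · exact (hA e).union (MeasurableSet.iUnion hA).compl
  · simpa using hA e

noncomputable def unif : Measure ℝ := volume.restrict (Set.Ioc 0 1)

instance : IsProbabilityMeasure unif := ⟨by simp [unif]⟩

lemma unif_sel {p : Step d → ℝ} (hp : ∀ e, 0 < p e) (hsum : ∑ e, p e = 1) (e : Step d) :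
    unif {u | sel p u = e} = ENNReal.ofReal (p e) := by
  have hm : ∀ f, MeasurableSet {u | sel p u = f} := fun f =>
    (measurable_sel.comp (measurable_const.prodMk measurable_id)) (measurableSet_singleton f)
  have hmax : ∀ f, max (p f) 0 = p f := fun f => max_eq_left (hp f).le
  have hle : ∀ f, ENNReal.ofReal (p f) ≤ unif {u | sel p u = f} := by
    intro f
    have hlo : 0 ≤ lo p f := Finset.sum_nonneg fun g _ => le_max_right _ _
    have hhi : lo p f + p f ≤ 1 := by
      rw [← hsum]
      unfold lo
      simp only [hmax]
      rw [add_comm, ← Finset.sum_insert (s := univ.filter (fun g => rank g < rank f)) (a := f)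
        (f := p) (by simp)]
      exact Finset.sum_le_sum_of_subset_of_nonneg (Finset.subset_univ _)
        fun g _ _ => (hp g).le
    have hsub : Set.Ioc (lo p f) (lo p f + p f) ⊆ {u | sel p u = f} ∩ Set.Ioc 0 1 :=
      fun u hu => ⟨sel_of_mem ⟨hu.1, by rw [hmax]; exact hu.2⟩, hlo.trans_lt hu.1,
        hu.2.trans hhi⟩
    rw [unif, Measure.restrict_apply (hm f)]
    refine le_trans (le_of_eq ?_) (measure_mono hsub)
    rw [Real.volume_Ioc]
    congr 1
    ring
  have htot : ∑ f, unif {u | sel p u = f} = ∑ f, ENNReal.ofReal (p f) := by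
    have h1 := sum_measure_preimage_singleton (μ := unif) (f := sel p)
      (Finset.univ : Finset (Step d)) fun f _ => hm f
    simp only [Set.preimage, Set.mem_singleton_iff] at h1
    rw [h1, ← ENNReal.ofReal_sum_of_nonneg fun f _ => (hp f).le, hsum]
    simp
  by_contra hne
  have hlt : ENNReal.ofReal (p e) < unif {u | sel p u = e} := lt_of_le_of_ne (hle e) (Ne.symm hne)
  refine absurd htot.symm (ne_of_lt ?_)
  rw [← Finset.sum_erase_add _ _ (Finset.mem_univ e),
    ← Finset.sum_erase_add _ _ (Finset.mem_univ e)]
  exact ENNReal.add_lt_add_of_le_of_lt (ENNReal.sum_ne_top.2 fun f _ => ENNReal.ofReal_ne_top)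
    (Finset.sum_le_sum fun f _ => hle f) hlt

noncomputable def walk (ω : Env d) (x : Site d) (U : ℕ → ℝ) : ℕ → Site d
  | 0 => x
  | n + 1 => walk ω x U n + vec (sel (ω (walk ω x U n)) (U n))

lemma measurable_walk (x : Site d) :
    Measurable fun q : Env d × (ℕ → ℝ) => walk q.1 x q.2 := by
  refine measurable_pi_lambda _ fun n => ?_
  induction n with
  | zero => exact measurable_const
  | succ n ih =>
    have hω : Measurable fun r : (Env d × (ℕ → ℝ)) × Site d =>
        vec (sel (r.1.1 r.2) (r.1.2 n)) := by
      refine measurable_from_prod_countable_left fun y => ?_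
      have : Measurable fun a : Env d × (ℕ → ℝ) => (a.1 y, a.2 n) := by fun_prop
      exact (measurable_of_countable vec).comp (measurable_sel.comp this)
    have h2 := hω.comp (f := fun q : Env d × (ℕ → ℝ) => (q, walk q.1 x q.2 n))
      (measurable_id.prodMk ih)
    simp only [walk]
    exact (measurable_of_countable fun z : Site d × Site d => z.1 + z.2).comp (ih.prodMk h2)

noncomputable def coins : Measure (ℕ → ℝ) := Measure.infinitePi fun _ => unif

instance : IsProbabilityMeasure coins := by unfold coins; infer_instance

/-- The quenched law built from uniform coins. -/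
noncomputable def law (ω : Env d) (x : Site d) : Measure (ℕ → Site d) :=
  coins.map (walk ω x)

lemma measurable_walk_right (ω : Env d) (x : Site d) : Measurable (walk ω x) :=
  (measurable_walk x).comp (measurable_const.prodMk measurable_id)

instance (ω : Env d) (x : Site d) : IsProbabilityMeasure (law ω x) :=
  Measure.isProbabilityMeasure_map (measurable_walk_right ω x).aemeasurable

theorem isQuenchedLaw_law {ω : Env d} (hω : Elliptic ω) (x : Site d) :
    IsQuenchedLaw ω x (law ω x) := by
  refine ⟨inferInstance, fun n e => ?_⟩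
  show law ω x (pre n (pathPos x e)) = _
  rw [law, Measure.map_apply (measurable_walk_right ω x) (measurableSet_pre n (pathPos x e))]
  show coins (walk ω x ⁻¹' {X | ∀ i ≤ n, X i = pathPos x e i}) = _
  have : walk ω x ⁻¹' {X | ∀ i ≤ n, X i = pathPos x e i} =
      Set.pi (Finset.range n : Set ℕ) fun i => {u | sel (ω (pathPos x e i)) u = e i} := by
    ext U
    simp only [Set.mem_preimage, Set.mem_setOf_eq, Set.mem_pi, Finset.mem_coe, Finset.mem_range]
    constructor
    · intro h i hi
      have h1 := h (i + 1) hi
      rw [walk, h i hi.le, pathPos_succ] at h1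
      exact vec_injective (add_left_cancel h1)
    · intro h i hi
      induction i with
      | zero => simp [walk, pathPos]
      | succ i ih =>
        rw [walk, ih (by omega), pathPos_succ, h i (by omega)]
  rw [this, coins, Measure.infinitePi_pi (t := fun i => {u | sel (ω (pathPos x e i)) u = e i}) _
    fun i _ => (measurable_sel.comp (f := fun u : ℝ => (ω (pathPos x e i), u))
      (measurable_const.prodMk measurable_id)) (measurableSet_singleton (e i))]
  exact Finset.prod_congr rfl fun i _ => unif_sel (hω _).1 (hω _).2 _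

def cons (x : Site d) (X : ℕ → Site d) : ℕ → Site d
  | 0 => x
  | n + 1 => X n

omit [Nonempty (Fin d)] in
lemma measurable_cons (x : Site d) : Measurable (cons x) := by
  refine measurable_pi_lambda _ fun n => ?_
  cases n with
  | zero => exact measurable_const
  | succ n => exact measurable_pi_apply n

omit [Nonempty (Fin d)] in
lemma pathPos_shift (x : Site d) (e : ℕ → Step d) (i : ℕ) :
    pathPos x e (i + 1) = pathPos (x + vec (e 0)) (fun j => e (j + 1)) i := by
  simp [pathPos, Finset.sum_range_succ', add_left_comm, add_comm]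

theorem isQuenchedLaw_step {ω : Env d} (hω : Elliptic ω) (x : Site d) :
    IsQuenchedLaw ω x
      (∑ f : Step d, ENNReal.ofReal (ω x f) • (law ω (x + vec f)).map (cons x)) := by
  have hmc := measurable_cons x
  have hone : ∀ f : Step d, ((law ω (x + vec f)).map (cons x)) univ = 1 := fun f => by
    rw [Measure.map_apply hmc .univ]; simp
  refine ⟨⟨?_⟩, fun n e => ?_⟩
  · simp only [Measure.coe_finsetSum, Finset.sum_apply, Measure.smul_apply, smul_eq_mul, hone,
      mul_one]
    rw [← ENNReal.ofReal_sum_of_nonneg fun f _ => ((hω x).1 f).le, (hω x).2, ENNReal.ofReal_one]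
  simp only [Measure.coe_finsetSum, Finset.sum_apply, Measure.smul_apply, smul_eq_mul]
  show ∑ f : Step d, ENNReal.ofReal (ω x f) *
    ((law ω (x + vec f)).map (cons x)) (pre n (pathPos x e)) = _
  simp_rw [Measure.map_apply hmc (measurableSet_pre n (pathPos x e))]
  change ∑ f : Step d, ENNReal.ofReal (ω x f) *
    law ω (x + vec f) (cons x ⁻¹' {X | ∀ i ≤ n, X i = pathPos x e i}) = _
  cases n with
  | zero =>
    have : cons x ⁻¹' {X | ∀ i ≤ 0, X i = pathPos x e i} = univ := by
      ext X; simp [cons, pathPos]
    simp only [this, measure_univ, mul_one, Finset.range_zero, Finset.prod_empty]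
    rw [← ENNReal.ofReal_sum_of_nonneg fun f _ => ((hω x).1 f).le, (hω x).2, ENNReal.ofReal_one]
  | succ n =>
    have hpre : cons x ⁻¹' {X | ∀ i ≤ n + 1, X i = pathPos x e i} =
        {X | ∀ i ≤ n, X i = pathPos (x + vec (e 0)) (fun j => e (j + 1)) i} := by
      ext X
      constructor
      · intro h i hi
        rw [← pathPos_shift]
        exact h (i + 1) (by omega)
      · intro h i hi
        cases i with
        | zero => simp [cons, pathPos]
        | succ i => rw [pathPos_shift]; exact h i (by omega)
    simp only [hpre]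
    rw [Finset.sum_eq_single (e 0)]
    · rw [(isQuenchedLaw_law hω (x + vec (e 0))).2 n (fun j => e (j + 1)),
        Finset.prod_range_succ' _ n, mul_comm]
      congr 1
      · exact Finset.prod_congr rfl fun i _ => by rw [pathPos_shift]
      · simp [pathPos]
    · intro f _ hf
      refine mul_eq_zero_of_right _ ?_
      by_contra h0
      obtain ⟨e', he'⟩ := exists_steps_of_pre_ne_zero hω (isQuenchedLaw_law hω (x + vec f)) n _ h0
      have := he' 0 (Nat.zero_le _)
      simp [pathPos] at this
      exact hf (vec_injective this.symm)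
    · simp

/-- The first step decomposition. -/
theorem law_step {ω : Env d} (hω : Elliptic ω) (x : Site d) {B : Set (ℕ → Site d)}
    (hB : MeasurableSet B) :
    law ω x B = ∑ f : Step d, ENNReal.ofReal (ω x f) * law ω (x + vec f) (cons x ⁻¹' B) := by
  conv_lhs => rw [law_unique hω (isQuenchedLaw_law hω x) (isQuenchedLaw_step hω x)]
  simp [Measure.map_apply (measurable_cons x) hB]

/-- Translating the environment translates the walk. -/
lemma walk_translate (ω : Env d) (v x : Site d) (U : ℕ → ℝ) (n : ℕ) :
    walk (fun y => ω (y + v)) x U n + v = walk ω (x + v) U n := by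
  induction n with
  | zero => simp [walk]
  | succ n ih => simp only [walk]; rw [← ih]; abel

theorem law_translate (ω : Env d) (v x : Site d) :
    law ω (x + v) = (law (fun y => ω (y + v)) x).map (fun X i => X i + v) := by
  have hsh : Measurable fun (X : ℕ → Site d) i => X i + v := by fun_prop
  rw [law, law, Measure.map_map hsh (measurable_walk_right _ x)]
  congr 1
  funext U i
  exact (walk_translate ω v x U i).symm

theorem measurable_law_apply (x : Site d) {B : Set (ℕ → Site d)} (hB : MeasurableSet B) :
    Measurable fun ω : Env d => law ω x B := by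
  have h : MeasurableSet ((fun q : Env d × (ℕ → ℝ) => walk q.1 x q.2) ⁻¹' B) :=
    measurable_walk x hB
  have := measurable_measure_prodMk_left (ν := coins) h
  convert this using 1
  funext ω
  rw [law, Measure.map_apply (measurable_walk_right ω x) hB]
  rfl

end Vale.Agent.P147
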